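import Vale.Agent.P284.H451.G.Geo
import Vale.Agent.P299.H720.Montel

/-!
# P284 (helper451), target G: the limit field; proof of `RigStmt`
-/

open scoped Manifold ContDiff Topology InnerProductSpace ComplexConjugate
open Filter Set Metric

noncomputable section

set_option linter.unusedSectionVars false

namespace Vale.Agent.P284.H451.G

open Vale.Agent.P272.K Vale.Agent.P284.H894 Vale.Agent.P284.H894.G Vale.Agent.P284.H894.V
  Vale.Agent.P284.H894.W Vale.Agent.P284.H573 Vale.Agent.P284.H213.Grp Vale.Agent.P284.H395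
  Vale.Agent.P284.H619 Vale.Agent.P284.H625 Vale.Agent.P284.H378 Vale.Agent.P284.H478.G
  Vale.Agent.P284.H212

/-- the isometry `U` as a continuous linear map -/
def ucl {H : Type} [NormedAddCommGroup H] [InnerProductSpace ℂ H] (U : H →ₗᵢ[ℂ] H) : H →L[ℂ] H :=
  U.toContinuousLinearMap

theorem ucl_iso {H : Type} [NormedAddCommGroup H] [InnerProductSpace ℂ H] (U : H →ₗᵢ[ℂ] H) :
    Iso (ucl U) := fun u v => U.inner_map_map u v

section loc
variable {s : ℕ} {H E : Type} [NormedAddCommGroup H] [InnerProductSpace ℂ H] [CompleteSpace H]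
  [TopologicalSpace E] {L : E → Submodule ℂ H}

/-- the limit field in a box: `φ j` are the sheet maps of `T j` -/
theorem loc_field {z : E} {B : E → Cm s} {γ : Cm s → H} {r : ℝ} {N : Set E}
    (h : Bx L z B γ r N) {T : ℕ → H →L[ℂ] H} (hT : ∀ j, Iso (T j)) {𝒰 : Ultrafilter ℕ} {ε : ℕ → ℝ}
    (hε : ∀ᶠ j in (𝒰 : Filter ℕ), 0 < ε j) (hε0 : Tendsto ε 𝒰 (𝓝 0))
    (hlim : ∀ y ∈ N, ∀ w ∈ L y, ∃ u, Tendsto (nd T ε w) 𝒰 (𝓝 u)) {ρ : ℝ} (hρ : 0 < ρ)
    (hρr : ρ ≤ r) {φ : ℕ → Cm s → Cm s}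
    (hφ : ∀ᶠ j in (𝒰 : Filter ℕ), DifferentiableOn ℂ (φ j) (ball (B z) ρ) ∧
      ∀ x ∈ ball (B z) ρ, φ j x ∈ ball (B z) r ∧ ∃ a : ℂ, T j (γ x) = a • γ (φ j x)) :
    ∃ (C : ℝ) (ζ : Cm s → Cm s), DifferentiableOn ℂ ζ (ball (B z) ρ) ∧
      (∀ᶠ j in (𝒰 : Filter ℕ), ∀ x ∈ ball (B z) ρ, ‖φ j x - x‖ ≤ C * ε j) ∧
      (∀ x ∈ ball (B z) ρ,
        Tendsto (fun j => (((ε j)⁻¹ : ℝ) : ℂ) • (φ j x - x)) 𝒰 (𝓝 (ζ x))) ∧
      ∀ x ∈ ball (B z) ρ, ∃ c : ℂ,
        Tendsto (nd T ε (γ x)) 𝒰 (𝓝 (c • γ x + fderiv ℂ γ x (ζ x))) := by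
  -- the cluster
  obtain ⟨τ₀, hτ₀, hcl⟩ := h.cluster h.mem (h.opn.mem_nhds h.mem)
  have hτ : 0 < min τ₀ r / 2 := by
    have := lt_min hτ₀ h.chd.pos
    positivity
  have hττ₀ : min τ₀ r / 2 < τ₀ := by
    have := min_le_left τ₀ r
    linarith
  have hτr : min τ₀ r / 2 < r := by
    have := min_le_right τ₀ r
    linarith
  set τ := min τ₀ r / 2
  obtain ⟨C₁, hC₁, hiso⟩ := h.chd.iso hτ hτr
  have hsubr : ball (B z) ρ ⊆ ball (B z) r := ball_subset_ball hρr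
  -- the cluster vectors move at the speed `ε`
  have hcb : ∀ i, ∃ M : ℝ, 0 < M ∧ ∀ᶠ j in (𝒰 : Filter ℕ),
      ‖T j (γ (cl (B z) τ i)) - γ (cl (B z) τ i)‖ ≤ M * ε j := by
    intro i
    obtain ⟨y', ⟨-, hy'⟩, hy'2⟩ := hcl _ hτ hττ₀ i
    obtain ⟨u, hu⟩ := hlim y' hy' _ (h.γ_mem hy')
    rw [hy'2] at hu
    refine ⟨‖u‖ + 1, by positivity, ?_⟩
    filter_upwards [hu.norm.eventually_lt_const (show ‖u‖ < ‖u‖ + 1 by linarith), hε] with j h1 h2
    rw [nd, norm_smul, Complex.norm_real, Real.norm_of_nonneg (by positivity),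
      inv_mul_lt_iff₀ h2] at h1
    linarith
  choose M hM0 hM using hcb
  set M₁ : ℝ := ∑ i, M i with hM₁
  have hM₁0 : 0 ≤ M₁ := Finset.sum_nonneg fun i _ => (hM0 i).le
  have hsum : ∀ᶠ j in (𝒰 : Filter ℕ),
      ∑ i, ‖T j (γ (cl (B z) τ i)) - γ (cl (B z) τ i)‖ ≤ M₁ * ε j := by
    filter_upwards [Filter.eventually_all.2 hM] with j hj
    rw [hM₁, Finset.sum_mul]
    exact Finset.sum_le_sum fun i _ => hj i
  set C₂ : ℝ := C₁ * M₁ with hC₂
  have hC₂0 : 0 ≤ C₂ := by positivity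
  have hkey : ∀ᶠ j in (𝒰 : Filter ℕ), ∀ x ∈ ball (B z) ρ, ∃ a : ℂ, T j (γ x) = a • γ (φ j x) ∧
      ‖a - 1‖ + ‖a • (φ j x - x)‖ ≤ C₂ * ε j := by
    filter_upwards [hφ, hsum] with j h1 h2 x hx
    obtain ⟨h3, a, h4⟩ := h1.2 x hx
    refine ⟨a, h4, ?_⟩
    have h5 := (hiso (T j) (hT j) (B z) (mem_ball_self h.chd.pos) x (hsubr hx) _ h3 a h4).1
    refine h5.trans ?_
    rw [hC₂, mul_assoc]
    exact mul_le_mul_of_nonneg_left h2 hC₁.le
  have hCε : Tendsto (fun j => C₂ * ε j) 𝒰 (𝓝 0) := by simpa using hε0.const_mul C₂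
  have hbd : ∀ᶠ j in (𝒰 : Filter ℕ), ∀ x ∈ ball (B z) ρ, ‖φ j x - x‖ ≤ 2 * C₂ * ε j := by
    filter_upwards [hkey, hCε.eventually_lt_const (show (0 : ℝ) < 2⁻¹ by norm_num)] with j h1 h2 x hx
    obtain ⟨a, -, h3⟩ := h1 x hx
    rw [norm_smul] at h3
    have h4 := norm_nonneg (a - 1)
    have h5 := norm_nonneg (φ j x - x)
    have h6 : 2⁻¹ ≤ ‖a‖ := by
      have h7 := norm_sub_norm_le (1 : ℂ) (1 - a)
      rw [norm_one, sub_sub_cancel, norm_sub_rev] at h7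
      have h8 : 0 ≤ ‖a‖ * ‖φ j x - x‖ := by positivity
      linarith
    have h7 : 2⁻¹ * ‖φ j x - x‖ ≤ ‖a‖ * ‖φ j x - x‖ := mul_le_mul_of_nonneg_right h6 h5
    linarith
  -- the limit of the sheet maps
  set f : ℕ → Cm s → Cm s := fun j x => (((ε j)⁻¹ : ℝ) : ℂ) • (φ j x - x) with hf
  have hLB : Vale.Agent.P299.H720.LocBdd (𝒰 : Filter ℕ) f (ball (B z) ρ) := by
    intro x hx
    obtain ⟨δ, hδ, hδs⟩ := Metric.isOpen_iff.1 isOpen_ball x hx
    refine ⟨δ, hδ, 2 * C₂, ?_⟩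
    filter_upwards [hφ, hbd, hε] with j h1 h2 h3
    refine ⟨(((h1.1.mono hδs).sub differentiableOn_id).const_smul (((ε j)⁻¹ : ℝ) : ℂ)), fun y hy => ?_⟩
    have h4 := h2 y (hδs hy)
    simp only [hf]
    rw [norm_smul, Complex.norm_real, Real.norm_of_nonneg (by positivity), inv_mul_le_iff₀ h3]
    linarith
  obtain ⟨ζ, hζd, -, hζ⟩ := Vale.Agent.P299.H720.montel_full 𝒰 isOpen_ball hLB
  have hζ' : ∀ x ∈ ball (B z) ρ,
      Tendsto (fun j => (((ε j)⁻¹ : ℝ) : ℂ) • (φ j x - x)) 𝒰 (𝓝 (ζ x)) := fun x hx =>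
    hζ x hx (fun _ => x) tendsto_const_nhds
  refine ⟨2 * C₂, ζ, hζd, hbd, hζ', fun x hx => ?_⟩
  have hch : ∀ j, ∃ a : ℂ, (∃ a : ℂ, T j (γ x) = a • γ (φ j x) ∧
      ‖a - 1‖ + ‖a • (φ j x - x)‖ ≤ C₂ * ε j) → T j (γ x) = a • γ (φ j x) ∧
      ‖a - 1‖ + ‖a • (φ j x - x)‖ ≤ C₂ * ε j := by
    intro j
    by_cases hj : ∃ a : ℂ, T j (γ x) = a • γ (φ j x) ∧ ‖a - 1‖ + ‖a • (φ j x - x)‖ ≤ C₂ * ε j
    · obtain ⟨a, h2⟩ := hj
      exact ⟨a, fun _ => h2⟩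
    · exact ⟨0, fun h => absurd h hj⟩
  choose a ha using hch
  have ha' : ∀ᶠ j in (𝒰 : Filter ℕ), T j (γ x) = a j • γ (φ j x) ∧
      ‖a j - 1‖ + ‖a j • (φ j x - x)‖ ≤ C₂ * ε j := hkey.mono fun j hj => ha j (hj x hx)
  have hx2 : x ∈ ball (B z) (2 * r) := h.sub (hsubr hx)
  obtain ⟨c, η, hη, -, hl⟩ := lim_chord 𝒰 (h.chd.an _ hx2).differentiableAt hε hε0
    (ha'.mono fun j hj => hj.2)
  have hηζ : η = ζ x := tendsto_nhds_unique hη (hζ' x hx)
  subst hηζ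
  refine ⟨c, hl.congr' ?_⟩
  filter_upwards [ha'] with j hj
  rw [nd, hj.1]

end loc

theorem rigStmt : RigStmt := by
  intro n q r k s m X _ _ _ _ E Γ _ _ _ _ p hG F c K hF hKn hKc hfr W H _ _ _ _ _ _ π Θ v U N 𝒢
    hLe g hg
  have hp := hG.cov
  have hv := hLe.form
  set L : E → Submodule ℂ H := Ln p v with hL
  have hopen : IsOpen 𝒢 := hLe.good.isOpen
  have hpre : IsPreconnected 𝒢 := thin_preconn hp hLe.good
  have hne : 𝒢.Nonempty := (thin_dense hp hLe.good).nonempty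
  have hch : ∀ z ∈ 𝒢, ∃ (B : E → Cm s) (γ : Cm s → H), PCh L z B γ := by
    intro z hz
    obtain ⟨e, b, F0, β, γ, τ, h⟩ := hLe.chart z hz
    exact ⟨_, γ, lc_pch hp hv h⟩
  set V : ℕ → H →L[ℂ] H := fun j => ucl (U (g j)) with hVdef
  have hnrF : ∀ z ∈ 𝒢, NrF L F (LinearMap.range (N : Cm k →ₗ[ℂ] Cm q)) (fun j => U (g j))
      (fun j => c (g j)) atTop z := by
    intro z hz
    obtain ⟨e, b, F0, β, γ, τ, h⟩ := hLe.chart z hz
    exact nrF_of hp hv hg hz h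
  have hn : ∀ z ∈ 𝒢, Nr L V atTop z := by
    intro z hz O hO
    obtain ⟨N₁, hN₁, hev⟩ := hnrF z hz O hO
    refine ⟨N₁, hN₁, hev.mono fun j hj y hy => ?_⟩
    obtain ⟨y'', hy'', h1, -⟩ := hj y hy
    exact ⟨y'', hy'', h1⟩
  rcases main_abs hpre hopen hne hch (fun j => ucl_iso (U (g j))) hn with htriv |
    ⟨𝒰, ε, μ, h𝒰, hμ, hε, hε0, hconv, hbd, hnv⟩
  · left
    filter_upwards [htriv] with j ⟨μ, hμ⟩ y hy e he ξ
    exact ⟨μ, hμ y hy _ (mem_Ln he ξ)⟩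
  · right
    have hps := fun (g : Γ) (y : E) => H366.GB.p_smul hG g y
    set T : ℕ → H →L[ℂ] H := fun j => μ j • V j with hTdef
    have hT : ∀ j, Iso (T j) := fun j => (ucl_iso _).smul (hμ j)
    have hnT : ∀ z ∈ 𝒢, Nr L T (𝒰 : Filter ℕ) z := fun z hz => ((hn z hz).smul μ).mono h𝒰
    -- existence of the limits
    have hex : ∀ y ∈ 𝒢, ∀ w ∈ L y, ∃ u, Tendsto (nd T ε w) 𝒰 (𝓝 u) := by
      intro y hy w hw
      obtain ⟨B, γ, hc⟩ := hch y hy
      obtain ⟨r', N', hb, -⟩ := hc.box (hopen.mem_nhds hy)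
      obtain ⟨N₂, hN₂, -, hl⟩ := hb.lim hT (hnT y hy) hε hε0 (hbd y hy)
      obtain ⟨c', η, h1⟩ := hl y (mem_of_mem_nhds hN₂)
      rw [hb.eq y hb.mem] at hw
      obtain ⟨a, rfl⟩ := Submodule.mem_span_singleton.1 hw
      refine ⟨_, (h1.const_smul a).congr fun j => ?_⟩
      simp only [nd, map_smul]
      module
    classical
    set Al : H → H := fun w => if h : ∃ u, Tendsto (nd T ε w) 𝒰 (𝓝 u) then h.choose else 0 with hAl
    have hAlt : ∀ y ∈ 𝒢, ∀ w ∈ L y, Tendsto (nd T ε w) 𝒰 (𝓝 (Al w)) := by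
      intro y hy w hw
      have h1 := hex y hy w hw
      simp only [hAl, h1, dite_true]
      exact h1.choose_spec
    -- the deformation
    set a : E → Chart n X → (Fin (q + r) → Cm n) → H := fun y e ξ => Al (v y e ξ) with ha
    have hDef : H366.GB.DefV p v 𝒢 a := by
      refine H366.GB.DefV.of_LC (F := F) (U := U) (π := π) (Θ := Θ) (N := N) (s := s) (W := W) (m := m)
        hp hv ?_ ?_ ?_
      · intro y _ e e' he he' ξ
        simp only [ha]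
        rw [hv.change y e e' he he']
      · intro z hz
        obtain ⟨e, b, F0, β, γ, τ, h⟩ := hLe.chart z hz
        obtain ⟨r', N', hb, -⟩ := (lc_pch hp hv h).box (hopen.mem_nhds hz)
        obtain ⟨N₂, hN₂, -, hl⟩ := hb.lim hT (hnT z hz) hε hε0 (hbd z hz)
        obtain ⟨c', η, h1⟩ := hl z (mem_of_mem_nhds hN₂)
        refine ⟨e, b, F0, β, γ, τ, η, c', h, fun ξ => ?_⟩
        have h2 := hAlt z hz _ (mem_Ln h.mem ξ)
        refine tendsto_nhds_unique h2 ?_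
        rw [h.v_eq.self_of_nhds ξ]
        have h3 := h1.const_smul ((Matrix.of fun i j => fderiv ℂ b (e (p z)) (ξ j) i).det ^ m)
        rw [add_comm (c' • _)] at h3
        refine h3.congr fun j => ?_
        simp only [nd, map_smul]
        module
      · intro y hy y' hy' e e' he he' ξ ξ'
        exact nd_skew hT (hconv y' hy' _ (mem_Ln he' ξ')) (hAlt y hy _ (mem_Ln he ξ))
          (hAlt y' hy' _ (mem_Ln he' ξ'))
    obtain ⟨K', hK'K, hK'n, hK'f, hK'⟩ := H366.GB.g2bStmt n (q + r) m X E Γ p hG K hKn hfr H v U 𝒢 hv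
      hLe.equi hopen hne hLe.inv (fun z hz => by
        obtain ⟨e, b, F0, β, γ, τ, h⟩ := hLe.chart z hz
        exact ⟨e, _, _, H366.GB.RepV.of_LC h⟩)
    refine ⟨𝒰, ε, K', h𝒰, hε, hε0, hK'K, hK'n, hK'f, ?_⟩
    -- the conjugates have the same limit
    have hconj : ∀ κ ∈ K', ∀ y ∈ 𝒢, ∀ w ∈ L y,
        Tendsto (nd (fun j => μ j • ucl (U (κ * g j * κ⁻¹))) ε w) 𝒰 (𝓝 (Al w)) := by
      intro κ hκ y hy w hw
      have h1 : ∀ w ∈ L y, ∃ u, Tendsto (nd T ε w) 𝒰 (𝓝 u) ∧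
          Tendsto (nd (fun j => μ j • ucl (U (κ * g j * κ⁻¹))) ε w) 𝒰 (𝓝 u) := by
        intro w hw
        refine Submodule.span_induction (p := fun w _ => ∃ u, Tendsto (nd T ε w) 𝒰 (𝓝 u) ∧
          Tendsto (nd (fun j => μ j • ucl (U (κ * g j * κ⁻¹))) ε w) 𝒰 (𝓝 u)) ?_ ?_ ?_ ?_ hw
        · rintro _ ⟨e, ξ, he, rfl⟩
          have hy' : κ⁻¹ • y ∈ 𝒢 := hLe.inv κ⁻¹ y hy
          have he' : At e (p (κ⁻¹ • y)) := by rw [hps]; exact he
          have h2 := hAlt y hy _ (mem_Ln he ξ)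
          have h3 := hAlt _ hy' _ (mem_Ln he' ξ)
          have h4 : Al (v y e ξ) = U κ (Al (v (κ⁻¹ • y) e ξ)) := by
            have := hK' a hDef κ hκ (κ⁻¹ • y) hy' e he' ξ
            rwa [smul_inv_smul] at this
          refine ⟨Al (v y e ξ), h2, ?_⟩
          rw [h4]
          have h5 := ((U κ).continuous.tendsto _).comp h3
          refine h5.congr fun j => ?_
          have e1 : U κ (v (κ⁻¹ • y) e ξ) = v y e ξ := by
            have := hLe.equi κ (κ⁻¹ • y) e he' ξ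
            rw [smul_inv_smul] at this
            exact this.symm
          have e2 : U (κ * g j * κ⁻¹) (v y e ξ) = U κ (U (g j) (v (κ⁻¹ • y) e ξ)) := by
            rw [← hLe.equi _ y e he, mul_smul, mul_smul, hLe.equi κ _ e (by rw [hps]; exact he'),
              hLe.equi (g j) _ e he']
          show U κ ((((ε j)⁻¹ : ℝ) : ℂ) • (μ j • U (g j) (v (κ⁻¹ • y) e ξ) - v (κ⁻¹ • y) e ξ)) =
            (((ε j)⁻¹ : ℝ) : ℂ) • (μ j • U (κ * g j * κ⁻¹) (v y e ξ) - v y e ξ)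
          rw [e2, map_smul, map_sub, map_smul, e1]
        · refine ⟨0, ?_, ?_⟩
          · refine tendsto_const_nhds.congr fun j => ?_
            simp [nd]
          · refine tendsto_const_nhds.congr fun j => ?_
            simp [nd]
        · rintro x x' _ _ ⟨u, h2, h3⟩ ⟨u', h2', h3'⟩
          refine ⟨u + u', (h2.add h2').congr fun j => ?_, (h3.add h3').congr fun j => ?_⟩
          · simp only [nd, map_add]; module
          · simp only [nd, map_add]; module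
        · rintro b x _ ⟨u, h2, h3⟩
          refine ⟨b • u, (h2.const_smul b).congr fun j => ?_, (h3.const_smul b).congr fun j => ?_⟩
          · simp only [nd, map_smul]; module
          · simp only [nd, map_smul]; module
      obtain ⟨u, h2, h3⟩ := h1 w hw
      rw [tendsto_nhds_unique (hAlt y hy w hw) h2]
      exact h3
    intro z hz e b F0 β γ τ hLC
    obtain ⟨r', N', hb, hN'⟩ := (lc_pch hp hv hLC).box (hopen.mem_nhds hz)
    set B : E → Cm s := fun y => β (b (e (p y))) with hB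
    -- the local result for every `κ`
    have hloc : ∀ κ ∈ K', ∃ ρ > 0, ball (B z) ρ ⊆ B '' N' ∧ ∃ (C : ℝ) (φ : ℕ → Cm s → Cm s)
        (ζ : Cm s → Cm s), DifferentiableOn ℂ ζ (ball (B z) ρ) ∧
        (∀ᶠ j in (𝒰 : Filter ℕ), NI U c N γ τ (B z) ρ (κ * g j * κ⁻¹) (φ j)) ∧
        (∀ᶠ j in (𝒰 : Filter ℕ), ∀ x ∈ ball (B z) ρ, ‖φ j x - x‖ ≤ C * ε j) ∧
        (∀ x ∈ ball (B z) ρ, Tendsto (fun j => (((ε j)⁻¹ : ℝ) : ℂ) • (φ j x - x)) 𝒰 (𝓝 (ζ x))) ∧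
        ∀ x ∈ ball (B z) ρ, ∃ c' : ℂ, Al (γ x) = c' • γ x + fderiv ℂ γ x (ζ x) := by
      intro κ hκ
      have hcκ : c κ = 0 := hKc κ (hK'K hκ)
      have h1 := nrF_conj hG hLe.equi hF (g := g) hcκ (hnrF _ (hLe.inv κ⁻¹ z hz))
      obtain ⟨ρ, hρ, hρN, φ, hφ⟩ := ni_of hp hv hLC h1 hb.chd.pos (hb.opn.mem_nhds hb.mem)
      have hρ' : 0 < min ρ r' := lt_min hρ hb.chd.pos
      have hsub : ball (B z) (min ρ r') ⊆ ball (B z) ρ := ball_subset_ball (min_le_left _ _)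
      have hφ' : ∀ᶠ j in (𝒰 : Filter ℕ), NI U c N γ τ (B z) (min ρ r') (κ * g j * κ⁻¹) (φ j) ∧
          ∀ x ∈ ball (B z) (min ρ r'), φ j x ∈ ball (B z) r' := by
        filter_upwards [h𝒰 hφ] with j hj
        exact ⟨⟨hj.1.1.mono hsub, fun x hx => hj.1.2 x (hsub hx)⟩, fun x hx => hj.2 x (hsub hx)⟩
      obtain ⟨C, ζ, h2, h3, h4, h5⟩ := loc_field hb
        (T := fun j => μ j • ucl (U (κ * g j * κ⁻¹))) (fun j => (ucl_iso _).smul (hμ j)) hε hε0
        (fun y hy w hw => ⟨_, hconj κ hκ y (hN' hy) w hw⟩) hρ' (min_le_right _ _) (φ := φ)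
        (by
          filter_upwards [hφ'] with j hj
          refine ⟨hj.1.1, fun x hx => ⟨hj.2 x hx, ?_⟩⟩
          obtain ⟨a, ha⟩ := (hj.1.2 x hx).1
          refine ⟨μ j * a, ?_⟩
          show μ j • U (κ * g j * κ⁻¹) (γ x) = _
          rw [ha, smul_smul])
      refine ⟨min ρ r', hρ', hsub.trans hρN, C, φ, ζ, h2, hφ'.mono fun j hj => hj.1, h3, h4,
        fun x hx => ?_⟩
      obtain ⟨c', h6⟩ := h5 x hx
      obtain ⟨y, hy, rfl⟩ := hρN (hsub hx)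
      exact ⟨c', tendsto_nhds_unique (hconj κ hκ y (hN' hy) _ (hb.γ_mem hy)) h6⟩
    obtain ⟨ρ₀, hρ₀, hρ₀N, C₀, φ₀, ζ₀, hζd, -, -, -, hζA⟩ := hloc 1 K'.one_mem
    refine ⟨ρ₀, hρ₀, ζ₀, hζd, fun ρ hρ => ?_, fun κ hκ => ?_⟩
    · -- the field does not vanish
      have hρ' : 0 < min ρ ρ₀ := lt_min hρ hρ₀
      have hO : N' ∩ B ⁻¹' ball (B z) (min ρ ρ₀) ∈ 𝓝 z := by
        refine inter_mem (hb.opn.mem_nhds hb.mem) ?_
        have h3 : ball (B z) (min ρ ρ₀) ∈ map B (𝓝 z) := by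
          rw [hb.nhd z hb.mem]; exact ball_mem_nhds _ hρ'
        exact h3
      obtain ⟨y, ⟨hyN, hyb⟩, w, hw, u, hu, hnot⟩ := hnv z hz _ hO
      refine ⟨B y, ball_subset_ball (min_le_left _ _) hyb, fun h0 => hnot ?_⟩
      obtain ⟨c', h1⟩ := hζA (B y) (ball_subset_ball (min_le_right _ _) hyb)
      rw [h0, map_zero, add_zero] at h1
      have h2 := hAlt y (hN' hyN) _ (hb.γ_mem hyN)
      rw [h1] at h2
      have heqL : L y = Submodule.span ℂ {γ (B y)} := hb.eq y hyN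
      rw [heqL] at hw ⊢
      obtain ⟨a', rfl⟩ := Submodule.mem_span_singleton.1 hw
      have h3 : Tendsto (nd T ε (a' • γ (B y))) 𝒰 (𝓝 (a' • c' • γ (B y))) := by
        refine (h2.const_smul a').congr fun j => ?_
        simp only [nd, map_smul]
        module
      rw [tendsto_nhds_unique hu h3, smul_smul]
      exact Submodule.smul_mem _ _ (Submodule.mem_span_singleton_self _)
    · obtain ⟨ρ, hρ, hρN, C, φ, ζ, h1, h2, h3, h4, h5⟩ := hloc κ hκ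
      have hρ' : 0 < min ρ ρ₀ := lt_min hρ hρ₀
      have hsub : ball (B z) (min ρ ρ₀) ⊆ ball (B z) ρ := ball_subset_ball (min_le_left _ _)
      have hsub₀ : ball (B z) (min ρ ρ₀) ⊆ ball (B z) ρ₀ := ball_subset_ball (min_le_right _ _)
      refine ⟨min ρ ρ₀, hρ', min_le_right _ _, C, φ, ?_, ?_, fun x hx => ?_⟩
      · filter_upwards [h2] with j hj
        exact ⟨hj.1.mono hsub, fun x hx => hj.2 x (hsub hx)⟩
      · filter_upwards [h3] with j hj x hx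
        exact hj x (hsub hx)
      · have h6 : ζ x = ζ₀ x := by
          obtain ⟨c₁, h7⟩ := h5 x (hsub hx)
          obtain ⟨c₂, h8⟩ := hζA x (hsub₀ hx)
          obtain ⟨y, hy, hyx⟩ := hρN (hsub hx)
          have himm : ImmAt γ x := by
            rw [← hyx]
            exact hb.chd.imm _ (hb.sub (hb.maps y hy))
          exact (imm_unique himm (h7.symm.trans h8)).2
        rw [← h6]
        exact h4 x (hsub hx)

end Vale.Agent.P284.H451.G
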