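import Vale.Agent.P284.H451.G.Loc
import Vale.Agent.P284.H573.DK.Bas

/-!
# P284 (helper451), target G: propagation over the good set

`L y` is a family of lines in `H`, locally `L y = ℂ γ(B y)` with `B` open and `γ` projectively immersive.
Isometries `T j` which move the lines only a little (`Nr`) are, after a change of the phases, near the
identity on all the lines, at one common speed.
-/

open scoped Topology ContDiff
open Filter Set Metric

noncomputable section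

namespace Vale.Agent.P284.H451.G

open Vale.Agent.P272.K Vale.Agent.P284.H573

variable {s : ℕ} {H : Type} [NormedAddCommGroup H] [InnerProductSpace ℂ H]
  {E : Type} [TopologicalSpace E] {L : E → Submodule ℂ H}

/-- a chart of the family of lines -/
structure PCh (L : E → Submodule ℂ H) (z : E) (B : E → Cm s) (γ : Cm s → H) : Prop where
  opn : ∀ᶠ y in 𝓝 z, map B (𝓝 y) = 𝓝 (B y)
  an : AnalyticAt ℂ γ (B z)
  imm : ImmAt γ (B z)
  eq : ∀ᶠ y in 𝓝 z, L y = Submodule.span ℂ {γ (B y)}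

/-- the maps `T j` move the lines near `z` only a little -/
def Nr {ι : Type*} (L : E → Submodule ℂ H) (T : ι → H →L[ℂ] H) (l : Filter ι) (z : E) : Prop :=
  ∀ O ∈ 𝓝 z, ∃ N ∈ 𝓝 z, ∀ᶠ j in l, ∀ y ∈ N, ∃ y'' ∈ O, ∀ w ∈ L y, T j w ∈ L y''

/-- a box for a chart -/
structure Bx (L : E → Submodule ℂ H) (z : E) (B : E → Cm s) (γ : Cm s → H) (r : ℝ) (N : Set E) :
    Prop where
  chd : Chd γ (B z) r
  opn : IsOpen N
  mem : z ∈ N
  maps : ∀ y ∈ N, B y ∈ ball (B z) r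
  nhd : ∀ y ∈ N, map B (𝓝 y) = 𝓝 (B y)
  eq : ∀ y ∈ N, L y = Submodule.span ℂ {γ (B y)}

theorem PCh.box [CompleteSpace H] {z : E} {B : E → Cm s} {γ : Cm s → H} (h : PCh L z B γ)
    {O : Set E} (hO : O ∈ 𝓝 z) : ∃ r N, Bx L z B γ r N ∧ N ⊆ O := by
  obtain ⟨r, -, hr⟩ := exists_chd h.an h.imm one_pos
  have h1 : ∀ᶠ y in 𝓝 z, B y ∈ ball (B z) r := by
    have h2 := h.opn.self_of_nhds
    have h3 : ball (B z) r ∈ map B (𝓝 z) := by rw [h2]; exact ball_mem_nhds _ hr.pos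
    exact h3
  obtain ⟨N, hN, hNo, hzN⟩ := _root_.eventually_nhds_iff.1
    ((h1.and (h.opn.and h.eq)).and (show ∀ᶠ y in 𝓝 z, y ∈ O from hO))
  exact ⟨r, N, ⟨hr, hNo, hzN, fun y hy => (hN y hy).1.1, fun y hy => (hN y hy).1.2.1,
    fun y hy => (hN y hy).1.2.2⟩, fun y hy => (hN y hy).2⟩

section
variable {z : E} {B : E → Cm s} {γ : Cm s → H} {r : ℝ} {N : Set E}

theorem Bx.γ_mem (h : Bx L z B γ r N) {y : E} (hy : y ∈ N) : γ (B y) ∈ L y := by
  rw [h.eq y hy]; exact Submodule.mem_span_singleton_self _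

theorem Bx.sub (h : Bx L z B γ r N) : ball (B z) r ⊆ ball (B z) (2 * r) :=
  ball_subset_ball (by linarith [h.chd.pos])

theorem Bx.γ_ne (h : Bx L z B γ r N) {y : E} (hy : y ∈ N) : γ (B y) ≠ 0 :=
  (h.chd.imm _ (h.sub (h.maps y hy))).1

/-- the cluster at `B y` lies in the image of a neighbourhood of `y`, for small `τ` -/
theorem Bx.cluster (h : Bx L z B γ r N) {y : E} (hy : y ∈ N) {O : Set E} (hO : O ∈ 𝓝 y) :
    ∃ τ₀ > 0, ∀ τ, 0 < τ → τ < τ₀ → ∀ i, ∃ y' ∈ O ∩ N, B y' = cl (B y) τ i := by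
  have h1 : B '' (O ∩ N) ∈ 𝓝 (B y) := by
    rw [← h.nhd y hy]
    exact image_mem_map (inter_mem hO (h.opn.mem_nhds hy))
  obtain ⟨τ₀, hτ₀, hb⟩ := Metric.mem_nhds_iff.1 h1
  refine ⟨τ₀, hτ₀, fun τ hτ hττ i => ?_⟩
  have h2 : cl (B y) τ i ∈ ball (B y) τ₀ := by
    rw [mem_ball]
    exact (dist_cl _ hτ.le i).trans_lt hττ
  obtain ⟨y', hy', h3⟩ := hb h2
  exact ⟨y', hy', h3⟩

/-- the local estimate -/
theorem Bx.rig {ι : Type*} (h : Bx L z B γ r N) {T : ι → H →L[ℂ] H} {l : Filter ι}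
    (hT : ∀ j, Iso (T j)) (hn : Nr L T l z) :
    ∃ N' ∈ 𝓝 z, N' ⊆ N ∧ ∀ τ, 0 < τ → τ < r → ∃ C : ℝ, 0 < C ∧ ∀ᶠ j in l,
      ∀ x₁ ∈ ball (B z) r, ∀ y ∈ N', ∃ (a : ℂ), ∃ x' ∈ ball (B z) r,
        T j (γ (B y)) = a • γ x' ∧
        ‖a - 1‖ + ‖a • (x' - B y)‖ ≤ C * ∑ i, ‖T j (γ (cl x₁ τ i)) - γ (cl x₁ τ i)‖ ∧
        ‖T j (γ (B y)) - γ (B y)‖ ≤ C * ∑ i, ‖T j (γ (cl x₁ τ i)) - γ (cl x₁ τ i)‖ := by
  obtain ⟨N₁, hN₁, hev⟩ := hn N (h.opn.mem_nhds h.mem)
  refine ⟨N₁ ∩ N, inter_mem hN₁ (h.opn.mem_nhds h.mem), inter_subset_right, fun τ hτ hτr => ?_⟩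
  obtain ⟨C, hC, hiso⟩ := h.chd.iso hτ hτr
  refine ⟨C, hC, ?_⟩
  filter_upwards [hev] with j hj x₁ hx₁ y hy
  obtain ⟨y'', hy'', h1⟩ := hj y hy.1
  have h2 := h1 _ (h.γ_mem hy.2)
  rw [h.eq y'' hy''] at h2
  obtain ⟨a, ha⟩ := Submodule.mem_span_singleton.1 h2
  obtain ⟨h3, h4⟩ := hiso (T j) (hT j) x₁ hx₁ (B y) (h.maps y hy.2) (B y'') (h.maps y'' hy'') a
    ha.symm
  exact ⟨a, B y'', h.maps y'' hy'', ha.symm, h3, h4⟩

end

/-! ### phases -/

section phases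
variable {ι : Type*} {l : Filter ι} {T : ι → H →L[ℂ] H}

/-- the orthogonal coefficient -/
def oc (w u : H) : ℂ := inner ℂ w u / inner ℂ w w

theorem oc_best {w : H} (hw : w ≠ 0) (u : H) (a : ℂ) : ‖u - oc w u • w‖ ≤ ‖u - a • w‖ := by
  have h0 : (inner ℂ w w : ℂ) ≠ 0 := by rwa [Ne, inner_self_eq_zero]
  have h1 : inner ℂ w (u - oc w u • w) = 0 := by
    rw [inner_sub_right, inner_smul_right, oc, div_mul_cancel₀ _ h0, sub_self]
  have h2 : u - a • w = (u - oc w u • w) + (oc w u - a) • w := by module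
  have h3 : ‖u - a • w‖ ^ 2 = ‖u - oc w u • w‖ ^ 2 + ‖(oc w u - a) • w‖ ^ 2 := by
    rw [h2]
    have h4 : inner ℂ (u - oc w u • w) ((oc w u - a) • w) = 0 := by
      rw [inner_smul_right, ← inner_conj_symm, h1, map_zero, mul_zero]
    have := norm_add_sq_eq_norm_sq_add_norm_sq_of_inner_eq_zero (𝕜 := ℂ) _ _ h4
    nlinarith [this]
  have h5 : ‖u - oc w u • w‖ ^ 2 ≤ ‖u - a • w‖ ^ 2 := by
    rw [h3]; nlinarith [sq_nonneg ‖(oc w u - a) • w‖]
  exact (sq_le_sq₀ (norm_nonneg _) (norm_nonneg _)).1 h5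

/-- at a point of the good set the vectors move only by a phase, up to `o(1)` -/
theorem Bx.phase {z : E} {B : E → Cm s} {γ : Cm s → H} {r : ℝ} {N : Set E}
    (h : Bx L z B γ r N) (hT : ∀ j, Iso (T j)) {y : E} (hy : y ∈ N) (hn : Nr L T l y) :
    Tendsto (fun j => T j (γ (B y)) - oc (γ (B y)) (T j (γ (B y))) • γ (B y)) l (𝓝 0) := by
  obtain ⟨A, hA, hb1, hb2⟩ := h.chd.bd
  set w := γ (B y) with hw
  have hyb := h.sub (h.maps y hy)
  rw [Metric.tendsto_nhds]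
  intro ε hε
  set δ : ℝ := ε / (2 * (A * A * A)) with hδ
  have hδ0 : 0 < δ := by positivity
  have hO : N ∩ B ⁻¹' ball (B y) δ ∈ 𝓝 y := by
    refine inter_mem (h.opn.mem_nhds hy) ?_
    have h3 : ball (B y) δ ∈ map B (𝓝 y) := by rw [h.nhd y hy]; exact ball_mem_nhds _ hδ0
    exact h3
  obtain ⟨N₁, hN₁, hev⟩ := hn _ hO
  filter_upwards [hev] with j hj
  obtain ⟨y'', ⟨hy'', hd⟩, h1⟩ := hj y (mem_of_mem_nhds hN₁)
  have h2 := h1 _ (h.γ_mem hy)
  rw [h.eq y'' hy''] at h2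
  obtain ⟨a, ha⟩ := Submodule.mem_span_singleton.1 h2
  have hb'' := h.sub (h.maps y'' hy'')
  -- `|a| ≤ A²`
  have ha1 : ‖a‖ ≤ A * A := by
    have h3 : ‖a‖ * ‖γ (B y'')‖ = ‖w‖ := by
      rw [← norm_smul, ha, (hT j).norm]
    have h4 := (hb1 _ hb'').2
    have h5 := (hb1 _ hyb).1
    have h6 : ‖a‖ * A⁻¹ ≤ A := by
      calc ‖a‖ * A⁻¹ ≤ ‖a‖ * ‖γ (B y'')‖ := by gcongr
        _ ≤ A := by rw [h3]; exact h5
    rwa [mul_inv_le_iff₀ hA] at h6
  have h7 : ‖T j w - a • w‖ ≤ A * A * (A * δ) := by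
    rw [← ha, ← smul_sub, norm_smul]
    have h8 := hb2 _ hyb _ hb''
    have h9 : ‖B y'' - B y‖ ≤ δ := by
      have := mem_ball.1 hd
      rw [dist_eq_norm] at this
      exact this.le
    calc ‖a‖ * ‖γ (B y'') - w‖ ≤ (A * A) * (A * ‖B y'' - B y‖) := by gcongr
      _ ≤ A * A * (A * δ) := by gcongr
  have hw0 : w ≠ 0 := h.γ_ne hy
  have h10 := oc_best hw0 (T j w) a
  rw [dist_zero_right]
  have h11 : A * A * (A * δ) = ε / 2 := by rw [hδ]; field_simp
  linarith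

/-- transport of the convergence `T j w → w` between nonorthogonal vectors -/
theorem tr_conv (hT : ∀ j, Iso (T j)) {w w' : H} (hw : Tendsto (fun j => T j w) l (𝓝 w))
    (h' : Tendsto (fun j => T j w' - oc w' (T j w') • w') l (𝓝 0))
    (hne : inner ℂ w w' ≠ 0) : Tendsto (fun j => T j w') l (𝓝 w') := by
  -- the coefficients tend to one
  have h1 : Tendsto (fun j => inner ℂ (T j w) (T j w' - oc w' (T j w') • w')) l (𝓝 0) := by
    rw [tendsto_zero_iff_norm_tendsto_zero]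
    have h2 : Tendsto (fun j => ‖w‖ * ‖T j w' - oc w' (T j w') • w'‖) l (𝓝 0) := by
      simpa using h'.norm.const_mul ‖w‖
    refine squeeze_zero (fun j => norm_nonneg _) (fun j => ?_) h2
    refine (norm_inner_le_norm _ _).trans ?_
    rw [(hT j).norm]
  have h2 : ∀ j, inner ℂ (T j w) (T j w' - oc w' (T j w') • w') =
      inner ℂ w w' - oc w' (T j w') * inner ℂ (T j w) w' := by
    intro j
    rw [inner_sub_right, inner_smul_right, hT j]
  simp only [h2] at h1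
  have h3 : Tendsto (fun j => inner ℂ (T j w) w') l (𝓝 (inner ℂ w w')) := by
    exact hw.inner tendsto_const_nhds
  have h4 : Tendsto (fun j => oc w' (T j w')) l (𝓝 1) := by
    have h5 : Tendsto (fun j => oc w' (T j w') * inner ℂ (T j w) w') l (𝓝 (inner ℂ w w')) := by
      have := (tendsto_const_nhds (x := inner ℂ w w')).sub h1
      simpa using this
    have h6 := h5.div h3 hne
    rw [div_self hne] at h6
    refine h6.congr' ?_
    filter_upwards [h3.eventually_ne hne] with j hj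
    simp only [Pi.div_apply]
    rw [mul_div_assoc, div_self hj, mul_one]
  have h5 := h'.add (h4.smul_const w')
  rw [zero_add, one_smul] at h5
  refine h5.congr fun j => ?_
  abel

variable {𝒢 : Set E}

/-- the convergence `T j w → w` propagates over the good set -/
theorem conv_all [CompleteSpace H] (hpre : IsPreconnected 𝒢) (hopen : IsOpen 𝒢)
    (hch : ∀ z ∈ 𝒢, ∃ (B : E → Cm s) (γ : Cm s → H), PCh L z B γ) (hT : ∀ j, Iso (T j))
    (hn : ∀ z ∈ 𝒢, Nr L T l z) {z₀ : E} (hz₀ : z₀ ∈ 𝒢)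
    (h0 : ∀ w ∈ L z₀, Tendsto (fun j => T j w) l (𝓝 w)) :
    ∀ z ∈ 𝒢, ∀ w ∈ L z, Tendsto (fun j => T j w) l (𝓝 w) := by
  have key : ∀ {z : E} {B : E → Cm s} {γ : Cm s → H} {r : ℝ} {N : Set E}, Bx L z B γ r N → N ⊆ 𝒢 →
      ∀ y ∈ N, (∀ w ∈ L y, Tendsto (fun j => T j w) l (𝓝 w)) → ∀ y' ∈ N,
        ∀ w ∈ L y', Tendsto (fun j => T j w) l (𝓝 w) := by
    intro z B γ r N hb hN y hy h y' hy' w hw
    have h1 := h _ (hb.γ_mem hy)
    have h2 := hb.phase hT hy' (hn y' (hN hy'))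
    have h3 := hb.chd.orth _ (hb.maps y hy) _ (hb.maps y' hy')
    have h4 := tr_conv hT h1 h2 h3
    rw [hb.eq y' hy'] at hw
    obtain ⟨a, rfl⟩ := Submodule.mem_span_singleton.1 hw
    have h5 := h4.const_smul a
    refine h5.congr fun j => ?_
    rw [map_smul]
  refine DK.pc_clopen (A := {z | ∀ w ∈ L z, Tendsto (fun j => T j w) l (𝓝 w)}) hpre hopen ?_ ?_
    ⟨z₀, hz₀, h0⟩
  · intro z hz hA
    obtain ⟨B, γ, hc⟩ := hch z hz
    obtain ⟨r, N, hb, hN⟩ := hc.box (hopen.mem_nhds hz)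
    filter_upwards [hb.opn.mem_nhds hb.mem] with y hy
    exact key hb hN z hb.mem hA y hy
  · intro z hz hf
    obtain ⟨B, γ, hc⟩ := hch z hz
    obtain ⟨r, N, hb, hN⟩ := hc.box (hopen.mem_nhds hz)
    obtain ⟨y, ⟨-, hy⟩, hyN⟩ := (hf.and_eventually (hb.opn.mem_nhds hb.mem)).exists
    exact key hb hN y hyN hy z hb.mem

/-- the choice of the phases -/
def ph (w u : H) : ℂ := if inner ℂ w u = (0 : ℂ) then 1 else (starRingEnd ℂ (inner ℂ w u)) / ‖inner ℂ w u‖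

theorem ph_norm (w u : H) : ‖ph w u‖ = 1 := by
  unfold ph
  split_ifs with h
  · exact norm_one
  · rw [norm_div, RCLike.norm_conj, Complex.norm_real, norm_norm, div_self]
    rwa [norm_ne_zero_iff]

theorem ph_inner (w u : H) : inner ℂ w (ph w u • u) = ((‖(inner ℂ w u : ℂ)‖ : ℝ) : ℂ) := by
  unfold ph
  split_ifs with h
  · rw [one_smul, h]; simp
  · rw [inner_smul_right, div_mul_eq_mul_div, Complex.conj_mul']
    have h1 : ((‖(inner ℂ w u : ℂ)‖ : ℝ) : ℂ) ≠ 0 := by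
      exact_mod_cast norm_ne_zero_iff.2 h
    field_simp

/-- after the change of the phases, `T j w₀ → w₀` -/
theorem ph_conv (hT : ∀ j, Iso (T j)) {w : H} (hw : w ≠ 0)
    (h : Tendsto (fun j => T j w - oc w (T j w) • w) l (𝓝 0))
    (hr : ∀ j, ∃ t : ℝ, 0 ≤ t ∧ inner ℂ w (T j w) = (t : ℂ)) : Tendsto (fun j => T j w) l (𝓝 w) := by
  choose t ht0 ht using hr
  have hw2 : 0 < ‖w‖ := norm_pos_iff.2 hw
  have hoc : ∀ j, oc w (T j w) = ((t j / ‖w‖ ^ 2 : ℝ) : ℂ) := by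
    intro j
    rw [oc, ht, inner_self_eq_norm_sq_to_K]
    push_cast
    rfl
  -- the norm of the coefficient
  have h1 : Tendsto (fun j => ‖oc w (T j w) • w‖) l (𝓝 ‖w‖) := by
    have h2 : Tendsto (fun j => ‖oc w (T j w) • w‖ - ‖w‖) l (𝓝 0) := by
      rw [tendsto_zero_iff_norm_tendsto_zero]
      refine squeeze_zero (fun j => norm_nonneg _) (fun j => ?_) (tendsto_zero_iff_norm_tendsto_zero.1 h)
      rw [← (hT j).norm w, Real.norm_eq_abs, norm_sub_rev (T j w)]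
      conv_lhs => rw [(hT j).norm w]
      have := abs_norm_sub_norm_le (oc w (T j w) • w) (T j w)
      rwa [(hT j).norm] at this
    have := h2.add_const ‖w‖
    simpa using this
  have h2 : Tendsto (fun j => t j / ‖w‖ ^ 2) l (𝓝 1) := by
    have h3 : ∀ j, ‖oc w (T j w) • w‖ / ‖w‖ = t j / ‖w‖ ^ 2 := by
      intro j
      rw [hoc, norm_smul, Complex.norm_real, Real.norm_of_nonneg (by have := ht0 j; positivity)]
      field_simp
    have h4 := h1.div_const ‖w‖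
    rw [div_self hw2.ne'] at h4
    exact h4.congr h3
  have h3 : Tendsto (fun j => oc w (T j w) • w) l (𝓝 w) := by
    have h4 : Tendsto (fun j => ((t j / ‖w‖ ^ 2 : ℝ) : ℂ)) l (𝓝 1) := by
      have := (Complex.continuous_ofReal.tendsto 1).comp h2
      rw [Complex.ofReal_one] at this
      exact this
    have h5 := h4.smul_const w
    rw [one_smul] at h5
    refine h5.congr fun j => ?_
    rw [hoc]
  have h4 := h.add h3
  rw [zero_add] at h4
  refine h4.congr fun j => ?_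
  abel

end phases

end Vale.Agent.P284.H451.G
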