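import Vale.Agent.P284.H451.G.Abs

/-!
# P284 (helper451), target G: one speed for all the lines, and the limit
-/

open scoped Topology ContDiff
open Filter Set Metric

noncomputable section

namespace Vale.Agent.P284.H451.G

open Vale.Agent.P272.K Vale.Agent.P284.H573

variable {s : ℕ} {H : Type} [NormedAddCommGroup H] [InnerProductSpace ℂ H]
  {E : Type} [TopologicalSpace E] {L : E → Submodule ℂ H} {ι : Type*} {l : Filter ι}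
  {T : ι → H →L[ℂ] H} {𝒢 : Set E}

/-- the bound at speed `ε` near `z` -/
def Bd (L : E → Submodule ℂ H) (T : ι → H →L[ℂ] H) (l : Filter ι) (ε : ι → ℝ) (z : E) : Prop :=
  ∃ N ∈ 𝓝 z, ∃ C : ℝ, 0 < C ∧ ∀ᶠ j in l, ∀ y ∈ N, ∀ w ∈ L y, ‖T j w - w‖ ≤ C * ε j * ‖w‖

/-- the bound at all the points from the bound at a cluster -/
theorem Bx.bd_of {z : E} {B : E → Cm s} {γ : Cm s → H} {r : ℝ} {N : Set E}
    (h : Bx L z B γ r N) (hT : ∀ j, Iso (T j)) (hn : Nr L T l z) {ε : ι → ℝ} {x₁ : Cm s}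
    (hx₁ : x₁ ∈ ball (B z) r) {τ : ℝ} (hτ : 0 < τ) (hτr : τ < r) {C₀ : ℝ} (hC₀ : 0 < C₀)
    (hε : ∀ᶠ j in l, ∀ i, ‖T j (γ (cl x₁ τ i)) - γ (cl x₁ τ i)‖ ≤ C₀ * ε j) : Bd L T l ε z := by
  obtain ⟨N', hN', hN'N, hrig⟩ := h.rig hT hn
  obtain ⟨C, hC, hev⟩ := hrig τ hτ hτr
  obtain ⟨A, hA, hb1, hb2⟩ := h.chd.bd
  refine ⟨N', hN', C * ((s + 1 : ℕ) * C₀) * A, by positivity, ?_⟩
  filter_upwards [hev, hε] with j hj hj2 y hy w hw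
  obtain ⟨a, x', hx', h1, h2, h3⟩ := hj x₁ hx₁ y hy
  rw [h.eq y (hN'N hy)] at hw
  obtain ⟨c, rfl⟩ := Submodule.mem_span_singleton.1 hw
  have h4 : ∑ i, ‖T j (γ (cl x₁ τ i)) - γ (cl x₁ τ i)‖ ≤ (s + 1 : ℕ) * (C₀ * ε j) := by
    refine (Finset.sum_le_sum fun i _ => hj2 i).trans ?_
    rw [Finset.sum_const, Finset.card_univ, Fintype.card_option, Fintype.card_fin, nsmul_eq_mul]
  have h5 : A⁻¹ ≤ ‖γ (B y)‖ := (hb1 _ (h.sub (h.maps y (hN'N hy)))).2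
  have h5' : 1 ≤ A * ‖γ (B y)‖ := by
    rw [inv_le_iff_one_le_mul₀ hA] at h5
    linarith
  rw [map_smul, ← smul_sub, norm_smul, norm_smul]
  have h6 : 0 ≤ C * ∑ i, ‖T j (γ (cl x₁ τ i)) - γ (cl x₁ τ i)‖ := (norm_nonneg _).trans h3
  have h7 : C * ∑ i, ‖T j (γ (cl x₁ τ i)) - γ (cl x₁ τ i)‖ ≤ C * ((s + 1 : ℕ) * (C₀ * ε j)) :=
    mul_le_mul_of_nonneg_left h4 hC.le
  have h8 : 0 ≤ C * ((s + 1 : ℕ) * (C₀ * ε j)) := h6.trans h7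
  calc ‖c‖ * ‖T j (γ (B y)) - γ (B y)‖ ≤ ‖c‖ * (C * ((s + 1 : ℕ) * (C₀ * ε j))) := by
        have := h3.trans h7
        gcongr
    _ = ‖c‖ * (C * ((s + 1 : ℕ) * (C₀ * ε j))) * 1 := by ring
    _ ≤ ‖c‖ * (C * ((s + 1 : ℕ) * (C₀ * ε j))) * (A * ‖γ (B y)‖) := by
        refine mul_le_mul_of_nonneg_left h5' (by positivity)
    _ = C * ((s + 1 : ℕ) * C₀) * A * ε j * (‖c‖ * ‖γ (B y)‖) := by ring

/-- the bound propagates -/
theorem bd_all [CompleteSpace H] (hpre : IsPreconnected 𝒢) (hopen : IsOpen 𝒢)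
    (hch : ∀ z ∈ 𝒢, ∃ (B : E → Cm s) (γ : Cm s → H), PCh L z B γ) (hT : ∀ j, Iso (T j))
    (hn : ∀ z ∈ 𝒢, Nr L T l z) {ε : ι → ℝ} {z₀ : E} (hz₀ : z₀ ∈ 𝒢) (h0 : Bd L T l ε z₀) :
    ∀ z ∈ 𝒢, Bd L T l ε z := by
  refine DK.pc_clopen (A := {z | Bd L T l ε z}) hpre hopen ?_ ?_ ⟨z₀, hz₀, h0⟩
  · rintro z hz ⟨N, hN, C, hC, h⟩
    filter_upwards [eventually_mem_nhds_iff.2 hN] with y hy
    exact ⟨N, hy, C, hC, h⟩
  · intro z hz hf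
    obtain ⟨B, γ, hc⟩ := hch z hz
    obtain ⟨r, N, hb, hN⟩ := hc.box (hopen.mem_nhds hz)
    obtain ⟨y, ⟨-, N₁, hN₁, C₁, hC₁, h⟩, hyN⟩ := (hf.and_eventually (hb.opn.mem_nhds hb.mem)).exists
    obtain ⟨τ₀, hτ₀, hcl⟩ := hb.cluster hyN hN₁
    obtain ⟨A, hA, hb1, hb2⟩ := hb.chd.bd
    have hτ : 0 < min τ₀ r / 2 := by
      have := lt_min hτ₀ hb.chd.pos
      positivity
    have hττ₀ : min τ₀ r / 2 < τ₀ := by
      have := min_le_left τ₀ r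
      linarith
    have hτr : min τ₀ r / 2 < r := by
      have := min_le_right τ₀ r
      linarith
    refine hb.bd_of hT (hn z hz) (hb.maps y hyN) hτ hτr (C₀ := C₁ * A) (by positivity) ?_
    filter_upwards [h] with j hj i
    obtain ⟨y', hy', hy'2⟩ := hcl _ hτ hττ₀ i
    rw [← hy'2]
    have h1 := hj y' hy'.1 _ (hb.γ_mem hy'.2)
    have h2 := (hb1 _ (hb.sub (hb.maps y' hy'.2))).1
    have h3 : 0 ≤ C₁ * ε j := by
      have h4 : 0 ≤ C₁ * ε j * ‖γ (B y')‖ := (norm_nonneg _).trans h1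
      have h5 : 0 < ‖γ (B y')‖ := norm_pos_iff.2 (hb.γ_ne hy'.2)
      exact nonneg_of_mul_nonneg_left h4 h5
    calc ‖T j (γ (B y')) - γ (B y')‖ ≤ C₁ * ε j * ‖γ (B y')‖ := h1
      _ ≤ C₁ * ε j * A := by gcongr
      _ = C₁ * A * ε j := by ring

/-- an operator which vanishes on the lines near one point vanishes on all the lines -/
theorem ident_all [CompleteSpace H] (hpre : IsPreconnected 𝒢) (hopen : IsOpen 𝒢)
    (hch : ∀ z ∈ 𝒢, ∃ (B : E → Cm s) (γ : Cm s → H), PCh L z B γ) (S : H →L[ℂ] H) {z₀ : E}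
    (hz₀ : z₀ ∈ 𝒢) (h0 : ∀ᶠ y in 𝓝 z₀, ∀ w ∈ L y, S w = 0) :
    ∀ z ∈ 𝒢, ∀ w ∈ L z, S w = 0 := by
  have h1 : ∀ z ∈ 𝒢, ∀ᶠ y in 𝓝 z, ∀ w ∈ L y, S w = 0 := by
    refine DK.pc_clopen (A := {z | ∀ᶠ y in 𝓝 z, ∀ w ∈ L y, S w = 0}) hpre hopen ?_ ?_
      ⟨z₀, hz₀, h0⟩
    · intro z hz hA
      exact hA.eventually_nhds
    · intro z hz hf
      obtain ⟨B, γ, hc⟩ := hch z hz
      obtain ⟨r, N, hb, hN⟩ := hc.box (hopen.mem_nhds hz)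
      obtain ⟨y, ⟨-, hy⟩, hyN⟩ := (hf.and_eventually (hb.opn.mem_nhds hb.mem)).exists
      have hy' : ∀ᶠ y' in 𝓝 y, ∀ w ∈ L y', S w = 0 := hy
      have han : AnalyticOnNhd ℂ (fun x => S (γ x)) (ball (B z) r) := fun x hx =>
        (S.analyticAt _).comp (hb.chd.an x (hb.sub hx))
      have hloc : ∀ᶠ x in 𝓝 (B y), S (γ x) = 0 := by
        rw [← hb.nhd y hyN]
        show ∀ᶠ y' in 𝓝 y, S (γ (B y')) = 0
        filter_upwards [hy', hb.opn.mem_nhds hyN] with y' h2 h3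
        exact h2 _ (hb.γ_mem h3)
      have h2 := han.eqOn_zero_of_preconnected_of_eventuallyEq_zero
        (convex_ball (B z) r).isPreconnected (hb.maps y hyN) hloc
      show ∀ᶠ y in 𝓝 z, ∀ w ∈ L y, S w = 0
      filter_upwards [hb.opn.mem_nhds hb.mem] with y' hy' w hw
      rw [hb.eq y' hy'] at hw
      obtain ⟨c, rfl⟩ := Submodule.mem_span_singleton.1 hw
      have h3 := h2 (hb.maps y' hy')
      simp only [Pi.zero_apply] at h3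
      rw [map_smul, h3, smul_zero]
  exact fun z hz => (h1 z hz).self_of_nhds

/-- the normalised difference -/
def nd (T : ι → H →L[ℂ] H) (ε : ι → ℝ) (w : H) : ι → H := fun j => (((ε j)⁻¹ : ℝ) : ℂ) • (T j w - w)

/-- the limit at a point, in a chart -/
theorem Bx.lim {𝒰 : Ultrafilter ι} {z : E} {B : E → Cm s} {γ : Cm s → H} {r : ℝ} {N : Set E}
    (h : Bx L z B γ r N) (hT : ∀ j, Iso (T j)) (hn : Nr L T (𝒰 : Filter ι) z) {ε : ι → ℝ}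
    (hε : ∀ᶠ j in (𝒰 : Filter ι), 0 < ε j) (hε0 : Tendsto ε 𝒰 (𝓝 0))
    (hb : Bd L T (𝒰 : Filter ι) ε z) :
    ∃ N' ∈ 𝓝 z, N' ⊆ N ∧ ∀ y ∈ N', ∃ (c : ℂ) (η : Cm s),
      Tendsto (nd T ε (γ (B y))) 𝒰 (𝓝 (c • γ (B y) + fderiv ℂ γ (B y) η)) := by
  obtain ⟨N', hN', hN'N, hrig⟩ := h.rig hT hn
  obtain ⟨N₁, hN₁, C₁, hC₁, hev⟩ := hb
  obtain ⟨τ₀, hτ₀, hcl⟩ := h.cluster h.mem hN₁
  obtain ⟨A, hA, hb1, hb2⟩ := h.chd.bd
  have hτ : 0 < min τ₀ r / 2 := by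
    have := lt_min hτ₀ h.chd.pos
    positivity
  have hττ₀ : min τ₀ r / 2 < τ₀ := by
    have := min_le_left τ₀ r
    linarith
  have hτr : min τ₀ r / 2 < r := by
    have := min_le_right τ₀ r
    linarith
  set τ := min τ₀ r / 2
  obtain ⟨C, hC, hev2⟩ := hrig τ hτ hτr
  refine ⟨N', hN', hN'N, fun y hy => ?_⟩
  have hyr := h.sub (h.maps y (hN'N hy))
  have h1 : ∀ᶠ j in (𝒰 : Filter ι), ∃ (a : ℂ) (x' : Cm s), T j (γ (B y)) = a • γ x' ∧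
      ‖a - 1‖ + ‖a • (x' - B y)‖ ≤ (C * ((s + 1 : ℕ) * (C₁ * A))) * ε j := by
    filter_upwards [hev, hev2, hε] with j hj hj2 hj3
    obtain ⟨a, x', hx', h2, h3, h4⟩ := hj2 (B z) (mem_ball_self h.chd.pos) y hy
    refine ⟨a, x', h2, h3.trans ?_⟩
    have h5 : ∑ i, ‖T j (γ (cl (B z) τ i)) - γ (cl (B z) τ i)‖ ≤ (s + 1 : ℕ) * (C₁ * A * ε j) := by
      have h6 : ∀ i ∈ (Finset.univ : Finset (Option (Fin s))),
          ‖T j (γ (cl (B z) τ i)) - γ (cl (B z) τ i)‖ ≤ C₁ * A * ε j := by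
        intro i _
        obtain ⟨y', hy', hy'2⟩ := hcl _ hτ hττ₀ i
        rw [← hy'2]
        have h7 := hj y' hy'.1 _ (h.γ_mem hy'.2)
        have h8 := (hb1 _ (h.sub (h.maps y' hy'.2))).1
        calc ‖T j (γ (B y')) - γ (B y')‖ ≤ C₁ * ε j * ‖γ (B y')‖ := h7
          _ ≤ C₁ * ε j * A := by gcongr
          _ = C₁ * A * ε j := by ring
      refine (Finset.sum_le_sum h6).trans ?_
      rw [Finset.sum_const, Finset.card_univ, Fintype.card_option, Fintype.card_fin, nsmul_eq_mul]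
    calc C * ∑ i, ‖T j (γ (cl (B z) τ i)) - γ (cl (B z) τ i)‖
        ≤ C * ((s + 1 : ℕ) * (C₁ * A * ε j)) := by gcongr
      _ = _ := by ring
  have hch : ∀ j, ∃ (a : ℂ) (x' : Cm s), (∃ (a : ℂ) (x' : Cm s), T j (γ (B y)) = a • γ x' ∧
      ‖a - 1‖ + ‖a • (x' - B y)‖ ≤ (C * ((s + 1 : ℕ) * (C₁ * A))) * ε j) →
      T j (γ (B y)) = a • γ x' ∧
      ‖a - 1‖ + ‖a • (x' - B y)‖ ≤ (C * ((s + 1 : ℕ) * (C₁ * A))) * ε j := by
    intro j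
    by_cases hj : ∃ (a : ℂ) (x' : Cm s), T j (γ (B y)) = a • γ x' ∧
      ‖a - 1‖ + ‖a • (x' - B y)‖ ≤ (C * ((s + 1 : ℕ) * (C₁ * A))) * ε j
    · obtain ⟨a, x', h2⟩ := hj
      exact ⟨a, x', fun _ => h2⟩
    · exact ⟨0, 0, fun h => absurd h hj⟩
  choose a x' hax using hch
  have h2 := h1.mono fun j hj => hax j hj
  obtain ⟨c, η, -, -, hlim⟩ := lim_chord 𝒰 (h.chd.an _ hyr).differentiableAt hε hε0
    (h2.mono fun j hj => hj.2)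
  refine ⟨c, η, hlim.congr' ?_⟩
  filter_upwards [h2] with j hj
  rw [nd, hj.1]

end Vale.Agent.P284.H451.G
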