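import Vale.Agent.P284.H451.G.Abs2

/-!
# P284 (helper451), target G: the dichotomy
-/

open scoped Topology ContDiff
open Filter Set Metric

noncomputable section

namespace Vale.Agent.P284.H451.G

open Vale.Agent.P272.K Vale.Agent.P284.H573

variable {s : ℕ} {H : Type} [NormedAddCommGroup H] [InnerProductSpace ℂ H]
  {E : Type} [TopologicalSpace E] {L : E → Submodule ℂ H} {ι : Type*} {l : Filter ι}
  {T : ι → H →L[ℂ] H} {𝒢 : Set E}

theorem Iso.smul {T : H →L[ℂ] H} (hT : Iso T) {μ : ℂ} (hμ : ‖μ‖ = 1) : Iso (μ • T) := by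
  intro u v
  show inner ℂ (μ • T u) (μ • T v) = _
  rw [inner_smul_left, inner_smul_right, hT, ← mul_assoc, Complex.conj_mul', hμ]
  simp

theorem Nr.smul {z : E} (h : Nr L T l z) (μ : ι → ℂ) : Nr L (fun j => μ j • T j) l z := by
  intro O hO
  obtain ⟨N, hN, h1⟩ := h O hO
  refine ⟨N, hN, h1.mono fun j hj y hy => ?_⟩
  obtain ⟨y'', hy'', h2⟩ := hj y hy
  exact ⟨y'', hy'', fun w hw => (L y'').smul_mem _ (h2 w hw)⟩

theorem Nr.mono {z : E} {l' : Filter ι} (h : Nr L T l z) (hl : l' ≤ l) : Nr L T l' z := by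
  intro O hO
  obtain ⟨N, hN, h1⟩ := h O hO
  exact ⟨N, hN, hl h1⟩

theorem Bd.mono {z : E} {l' : Filter ι} {ε : ι → ℝ} (h : Bd L T l ε z) (hl : l' ≤ l) :
    Bd L T l' ε z := by
  obtain ⟨N, hN, C, hC, h1⟩ := h
  exact ⟨N, hN, C, hC, hl h1⟩

/-- skewness of the limits -/
theorem nd_skew [l.NeBot] (hT : ∀ j, Iso (T j)) {ε : ι → ℝ} {w w' u u' : H}
    (hw' : Tendsto (fun j => T j w') l (𝓝 w')) (hu : Tendsto (nd T ε w) l (𝓝 u))
    (hu' : Tendsto (nd T ε w') l (𝓝 u')) : inner ℂ u w' + inner ℂ w u' = 0 := by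
  have h1 : Tendsto (fun j => inner ℂ (nd T ε w j) (T j w') + inner ℂ w (nd T ε w' j)) l
      (𝓝 (inner ℂ u w' + inner ℂ w u')) :=
    (hu.inner hw').add (tendsto_const_nhds.inner hu')
  refine tendsto_nhds_unique h1 ?_
  refine tendsto_const_nhds.congr fun j => ?_
  simp only [nd]
  rw [inner_smul_left, inner_smul_right, Complex.conj_ofReal, inner_sub_left, inner_sub_right, hT]
  ring

/-- the normalised differences after a small rotation -/
theorem nd_rot {ε : ι → ℝ} (hε : ∀ᶠ j in l, 0 < ε j) (hε0 : Tendsto ε l (𝓝 0)) (c : ℂ) {w u : H}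
    (hw : Tendsto (fun j => T j w) l (𝓝 w)) (hu : Tendsto (nd T ε w) l (𝓝 u)) :
    Tendsto (nd (fun j => Complex.exp (-(c * ε j)) • T j) ε w) l (𝓝 (u - c • w)) := by
  have h1 : HasDerivAt (fun t : ℝ => Complex.exp (-(c * t))) (-c) 0 := by
    have h2 : HasDerivAt (fun t : ℝ => -(c * (t : ℂ))) (-(c * 1)) 0 :=
      ((Complex.ofRealCLM.hasDerivAt (x := (0 : ℝ))).const_mul c).neg
    have h3 := h2.cexp
    simpa using h3
  have h2 : Tendsto (fun j => ((ε j)⁻¹ : ℝ) • (Complex.exp (-(c * ε j)) - 1)) l (𝓝 (-c)) := by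
    have h3 := h1.tendsto_slope_zero_right
    have h4 : Tendsto ε l (𝓝[>] 0) := tendsto_nhdsWithin_iff.2 ⟨hε0, hε⟩
    have h5 := h3.comp h4
    refine h5.congr fun j => ?_
    simp
  have h3 : Tendsto (fun j => (((ε j)⁻¹ : ℝ) • (Complex.exp (-(c * ε j)) - 1)) • T j w + nd T ε w j)
      l (𝓝 ((-c) • w + u)) := (h2.smul hw).add hu
  have h4 : (-c) • w + u = u - c • w := by module
  rw [h4] at h3
  refine h3.congr fun j => ?_
  simp only [nd, ContinuousLinearMap.smul_apply]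
  rw [Complex.real_smul]
  module

/-- vanishing of the limit near one point propagates -/
theorem lim_zero_all [CompleteSpace H] (hpre : IsPreconnected 𝒢) (hopen : IsOpen 𝒢)
    (hch : ∀ z ∈ 𝒢, ∃ (B : E → Cm s) (γ : Cm s → H), PCh L z B γ) (hT : ∀ j, Iso (T j))
    (hn : ∀ z ∈ 𝒢, Nr L T l z) {ε : ι → ℝ} {z₀ : E}
    (hz₀ : z₀ ∈ 𝒢) (h0 : ∀ᶠ y in 𝓝 z₀, ∀ w ∈ L y, Tendsto (nd T ε w) l (𝓝 0)) :
    ∀ z ∈ 𝒢, ∀ w ∈ L z, Tendsto (nd T ε w) l (𝓝 0) := by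
  obtain ⟨B, γ, hc⟩ := hch z₀ hz₀
  obtain ⟨r, N, hb, hN⟩ := hc.box (hopen.mem_nhds hz₀)
  obtain ⟨τ₀, hτ₀, hcl⟩ := hb.cluster hb.mem h0
  have hτ : 0 < min τ₀ r / 2 := by
    have := lt_min hτ₀ hb.chd.pos
    positivity
  have hττ₀ : min τ₀ r / 2 < τ₀ := by
    have := min_le_left τ₀ r
    linarith
  have hτr : min τ₀ r / 2 < r := by
    have := min_le_right τ₀ r
    linarith
  set τ := min τ₀ r / 2
  set δ : ι → ℝ := fun j => ∑ i, ‖T j (γ (cl (B z₀) τ i)) - γ (cl (B z₀) τ i)‖ with hδ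
  have h1 : Bd L T l δ z₀ := by
    refine hb.bd_of hT (hn z₀ hz₀) (mem_ball_self hb.chd.pos) hτ hτr one_pos
      (Eventually.of_forall fun j i => ?_)
    rw [one_mul]
    exact Finset.single_le_sum (f := fun i => ‖T j (γ (cl (B z₀) τ i)) - γ (cl (B z₀) τ i)‖)
      (fun _ _ => norm_nonneg _) (Finset.mem_univ i)
  have h2 := bd_all hpre hopen hch hT hn hz₀ h1
  have h3 : Tendsto (fun j => ‖(((ε j)⁻¹ : ℝ) : ℂ)‖ * δ j) l (𝓝 0) := by
    have h4 : Tendsto (fun j => ∑ i, ‖nd T ε (γ (cl (B z₀) τ i)) j‖) l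
        (𝓝 (∑ _i : Option (Fin s), 0)) := by
      refine tendsto_finsetSum _ fun i _ => ?_
      obtain ⟨y', hy', hy'2⟩ := hcl _ hτ hττ₀ i
      rw [← hy'2]
      simpa using (hy'.1 _ (hb.γ_mem hy'.2)).norm
    rw [Finset.sum_const_zero] at h4
    refine h4.congr fun j => ?_
    rw [hδ]
    simp only
    rw [Finset.mul_sum]
    refine Finset.sum_congr rfl fun i _ => ?_
    rw [nd, norm_smul]
  intro z hz w hw
  obtain ⟨N', hN', C, hC, hev⟩ := h2 z hz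
  rw [tendsto_zero_iff_norm_tendsto_zero]
  have h5 : Tendsto (fun j => (C * ‖w‖) * (‖(((ε j)⁻¹ : ℝ) : ℂ)‖ * δ j)) l (𝓝 0) := by
    simpa using h3.const_mul (C * ‖w‖)
  refine squeeze_zero' (Eventually.of_forall fun j => norm_nonneg _) ?_ h5
  filter_upwards [hev] with j hj
  have h6 := hj z (mem_of_mem_nhds hN') w hw
  rw [nd, norm_smul]
  calc ‖(((ε j)⁻¹ : ℝ) : ℂ)‖ * ‖T j w - w‖ ≤ ‖(((ε j)⁻¹ : ℝ) : ℂ)‖ * (C * δ j * ‖w‖) := by gcongr
    _ = _ := by ring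

/-- **the dichotomy** -/
theorem main_abs [CompleteSpace H] (hpre : IsPreconnected 𝒢) (hopen : IsOpen 𝒢)
    (hne : 𝒢.Nonempty) (hch : ∀ z ∈ 𝒢, ∃ (B : E → Cm s) (γ : Cm s → H), PCh L z B γ)
    {V : ι → H →L[ℂ] H} (hV : ∀ j, Iso (V j)) (hn : ∀ z ∈ 𝒢, Nr L V l z) :
    (∀ᶠ j in l, ∃ μ : ℂ, ∀ y ∈ 𝒢, ∀ w ∈ L y, V j w = μ • w) ∨
    ∃ (𝒰 : Ultrafilter ι) (ε : ι → ℝ) (μ : ι → ℂ), (𝒰 : Filter ι) ≤ l ∧ (∀ j, ‖μ j‖ = 1) ∧
      (∀ᶠ j in (𝒰 : Filter ι), 0 < ε j) ∧ Tendsto ε 𝒰 (𝓝 0) ∧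
      (∀ z ∈ 𝒢, ∀ w ∈ L z, Tendsto (fun j => (μ j • V j) w) 𝒰 (𝓝 w)) ∧
      (∀ z ∈ 𝒢, Bd L (fun j => μ j • V j) (𝒰 : Filter ι) ε z) ∧
      ∀ z ∈ 𝒢, ∀ N ∈ 𝓝 z, ∃ y ∈ N, ∃ w ∈ L y, ∃ u,
        Tendsto (nd (fun j => μ j • V j) ε w) 𝒰 (𝓝 u) ∧ u ∉ L y := by
  obtain ⟨z₀, hz₀⟩ := hne
  obtain ⟨B₀, γ₀, hc₀⟩ := hch z₀ hz₀
  obtain ⟨r₀, N₀, hb₀, hN₀⟩ := hc₀.box (hopen.mem_nhds hz₀)
  set w₀ := γ₀ (B₀ z₀) with hw₀
  have hw₀0 : w₀ ≠ 0 := hb₀.γ_ne hb₀.mem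
  have hw₀L : w₀ ∈ L z₀ := hb₀.γ_mem hb₀.mem
  set μ : ι → ℂ := fun j => ph w₀ (V j w₀) with hμ
  have hμ1 : ∀ j, ‖μ j‖ = 1 := fun j => ph_norm _ _
  set T : ι → H →L[ℂ] H := fun j => μ j • V j with hTdef
  have hT : ∀ j, Iso (T j) := fun j => (hV j).smul (hμ1 j)
  have hnT : ∀ z ∈ 𝒢, Nr L T l z := fun z hz => (hn z hz).smul μ
  have hreal : ∀ j, inner ℂ w₀ (T j w₀) = ((‖(inner ℂ w₀ (V j w₀) : ℂ)‖ : ℝ) : ℂ) := fun j =>
    ph_inner _ _
  have hconv₀ : Tendsto (fun j => T j w₀) l (𝓝 w₀) :=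
    ph_conv hT hw₀0 (hb₀.phase hT hb₀.mem (hnT z₀ hz₀)) fun j => ⟨_, norm_nonneg _, hreal j⟩
  have hconv : ∀ z ∈ 𝒢, ∀ w ∈ L z, Tendsto (fun j => T j w) l (𝓝 w) := by
    refine conv_all hpre hopen hch hT hnT hz₀ fun w hw => ?_
    rw [hb₀.eq z₀ hb₀.mem] at hw
    obtain ⟨a, rfl⟩ := Submodule.mem_span_singleton.1 hw
    refine (hconv₀.const_smul a).congr fun j => ?_
    rw [map_smul]
  -- the cluster
  obtain ⟨τ₀, hτ₀, hcl⟩ := hb₀.cluster hb₀.mem (hopen.mem_nhds hz₀)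
  have hτ : 0 < min τ₀ r₀ / 2 := by
    have := lt_min hτ₀ hb₀.chd.pos
    positivity
  have hττ₀ : min τ₀ r₀ / 2 < τ₀ := by
    have := min_le_left τ₀ r₀
    linarith
  have hτr : min τ₀ r₀ / 2 < r₀ := by
    have := min_le_right τ₀ r₀
    linarith
  set τ := min τ₀ r₀ / 2
  set ε : ι → ℝ := fun j => ∑ i, ‖T j (γ₀ (cl (B₀ z₀) τ i)) - γ₀ (cl (B₀ z₀) τ i)‖ with hε
  have hε0 : ∀ j, 0 ≤ ε j := fun j => Finset.sum_nonneg fun _ _ => norm_nonneg _
  have hεt : Tendsto ε l (𝓝 0) := by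
    have h4 : Tendsto ε l (𝓝 (∑ _i : Option (Fin s), (0 : ℝ))) := by
      refine tendsto_finsetSum _ fun i _ => ?_
      obtain ⟨y', hy', hy'2⟩ := hcl _ hτ hττ₀ i
      rw [← hy'2]
      have h5 := hconv y' hy'.1 _ (hb₀.γ_mem hy'.2)
      have h6 := (h5.sub (tendsto_const_nhds (x := γ₀ (B₀ y')))).norm
      simpa using h6
    rwa [Finset.sum_const_zero] at h4
  have hbd₀ : Bd L T l ε z₀ := by
    refine hb₀.bd_of hT (hnT z₀ hz₀) (mem_ball_self hb₀.chd.pos) hτ hτr one_pos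
      (Eventually.of_forall fun j i => ?_)
    rw [one_mul]
    exact Finset.single_le_sum (f := fun i => ‖T j (γ₀ (cl (B₀ z₀) τ i)) - γ₀ (cl (B₀ z₀) τ i)‖)
      (fun _ _ => norm_nonneg _) (Finset.mem_univ i)
  have hbd := bd_all hpre hopen hch hT hnT hz₀ hbd₀
  by_cases hcase : ∀ᶠ j in l, ε j = 0
  · -- trivial case
    left
    obtain ⟨N, hN, C, hC, hev⟩ := hbd₀
    filter_upwards [hcase, hev] with j hj1 hj2
    have h1 : ∀ z ∈ 𝒢, ∀ w ∈ L z, (T j - ContinuousLinearMap.id ℂ H) w = 0 := by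
      refine ident_all hpre hopen hch _ hz₀ ?_
      filter_upwards [hN] with y hy w hw
      have h2 := hj2 y hy w hw
      rw [hj1, mul_zero, zero_mul] at h2
      exact norm_le_zero_iff.1 h2
    refine ⟨(μ j)⁻¹, fun y hy w hw => ?_⟩
    have h2 := h1 y hy w hw
    have h3 : T j w = w := sub_eq_zero.1 h2
    have h4 : μ j • V j w = w := h3
    have h5 : μ j ≠ 0 := by
      intro h0
      have := hμ1 j
      rw [h0, norm_zero] at this
      exact zero_ne_one this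
    rw [eq_inv_smul_iff₀ h5]
    exact h4
  · right
    have hne' : (l ⊓ 𝓟 {j | ε j ≠ 0}).NeBot := frequently_iff_neBot.1 (not_eventually.1 hcase)
    set 𝒰 : Ultrafilter ι := Ultrafilter.of (l ⊓ 𝓟 {j | ε j ≠ 0}) with h𝒰
    have h𝒰l : (𝒰 : Filter ι) ≤ l := (Ultrafilter.of_le _).trans inf_le_left
    have h𝒰n : ∀ᶠ j in (𝒰 : Filter ι), 0 < ε j := by
      have h2 : ∀ᶠ j in (𝒰 : Filter ι), ε j ≠ 0 :=
        ((Ultrafilter.of_le _).trans inf_le_right) (mem_principal_self _)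
      filter_upwards [h2] with j hj
      exact lt_of_le_of_ne (hε0 j) hj.symm
    have hεt' := hεt.mono_left h𝒰l
    have hconv' : ∀ z ∈ 𝒢, ∀ w ∈ L z, Tendsto (fun j => T j w) 𝒰 (𝓝 w) := fun z hz w hw =>
      (hconv z hz w hw).mono_left h𝒰l
    have hnT' : ∀ z ∈ 𝒢, Nr L T (𝒰 : Filter ι) z := fun z hz => (hnT z hz).mono h𝒰l
    have hbd' : ∀ z ∈ 𝒢, Bd L T (𝒰 : Filter ι) ε z := fun z hz => (hbd z hz).mono h𝒰l
    refine ⟨𝒰, ε, μ, h𝒰l, hμ1, h𝒰n, hεt', hconv', hbd', fun z hz N hN => ?_⟩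
    by_contra hcon
    push Not at hcon
    obtain ⟨B, γ, hc⟩ := hch z hz
    obtain ⟨r, N₁, hb, hN₁⟩ := hc.box (inter_mem hN (hopen.mem_nhds hz))
    obtain ⟨N₂, hN₂, hN₂₁, hlim⟩ := hb.lim hT (hnT' z hz) h𝒰n hεt' (hbd' z hz)
    -- the limits are multiples
    have hmul : ∀ y ∈ N₂, ∃ c : ℂ, Tendsto (nd T ε (γ (B y))) 𝒰 (𝓝 (c • γ (B y))) := by
      intro y hy
      obtain ⟨c, η, h1⟩ := hlim y hy
      have hyN := hN₂₁ hy
      have h2 := hcon y (hN₁ hyN).1 _ (hb.γ_mem hyN) _ h1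
      rw [hb.eq y hyN] at h2
      obtain ⟨c', hc'⟩ := Submodule.mem_span_singleton.1 h2
      refine ⟨c', ?_⟩
      rw [hc']
      exact h1
    obtain ⟨c₀, hc₀'⟩ := hmul z (mem_of_mem_nhds hN₂)
    have hzN := hb.mem
    -- the multiple is constant and imaginary
    have hskew : ∀ y ∈ N₂, ∀ c : ℂ, Tendsto (nd T ε (γ (B y))) 𝒰 (𝓝 (c • γ (B y))) →
        (starRingEnd ℂ) c₀ + c = 0 := by
      intro y hy c hc
      have h1 := nd_skew hT (hconv' y (hN₁ (hN₂₁ hy)).2 _ (hb.γ_mem (hN₂₁ hy))) hc₀' hc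
      rw [inner_smul_left, inner_smul_right, ← add_mul] at h1
      exact (mul_eq_zero.1 h1).resolve_right
        (hb.chd.orth _ (hb.maps z hzN) _ (hb.maps y (hN₂₁ hy)))
    have him : (starRingEnd ℂ) c₀ = -c₀ :=
      eq_neg_of_add_eq_zero_left (hskew z (mem_of_mem_nhds hN₂) c₀ hc₀')
    have hconst : ∀ y ∈ N₂, Tendsto (nd T ε (γ (B y))) 𝒰 (𝓝 (c₀ • γ (B y))) := by
      intro y hy
      obtain ⟨c, hc⟩ := hmul y hy
      have h1 := hskew y hy c hc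
      rw [him] at h1
      have h2 : c = c₀ := by linear_combination h1
      rwa [h2] at hc
    -- rotate
    set T' : ι → H →L[ℂ] H := fun j => Complex.exp (-(c₀ * ε j)) • T j with hT'
    have hexp : ∀ j, ‖Complex.exp (-(c₀ * ε j))‖ = 1 := by
      intro j
      rw [Complex.norm_exp]
      have h1 : c₀.re = 0 := by
        have := congrArg Complex.re him
        rw [Complex.conj_re, Complex.neg_re] at this
        linarith
      rw [Complex.neg_re, Complex.mul_re, Complex.ofReal_im, Complex.ofReal_re, h1]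
      simp
    have hTT' : ∀ j, Iso (T' j) := fun j => (hT j).smul (hexp j)
    have hnT'' : ∀ z ∈ 𝒢, Nr L T' (𝒰 : Filter ι) z := fun z hz => (hnT' z hz).smul _
    have hzero := lim_zero_all hpre hopen hch hTT' hnT'' (ε := ε) hz (by
      filter_upwards [hN₂] with y hy w hw
      have hyN := hN₂₁ hy
      rw [hb.eq y hyN] at hw
      obtain ⟨a, rfl⟩ := Submodule.mem_span_singleton.1 hw
      have h1 := nd_rot h𝒰n hεt' c₀ (hconv' y (hN₁ hyN).2 _ (hb.γ_mem hyN)) (hconst y hy)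
      rw [sub_self] at h1
      have h2 := h1.const_smul a
      rw [smul_zero] at h2
      refine h2.congr fun j => ?_
      simp only [nd, map_smul]
      module)
    -- back to `T`
    have hback : ∀ y ∈ 𝒢, ∀ w ∈ L y, Tendsto (nd T ε w) 𝒰 (𝓝 (c₀ • w)) := by
      intro y hy w hw
      have h1 := hzero y hy w hw
      have h2 : Tendsto (fun j => T' j w) 𝒰 (𝓝 w) := by
        have h3 : Tendsto (fun j => Complex.exp (-(c₀ * ε j))) 𝒰 (𝓝 1) := by
          have h4 : Tendsto (fun j => (ε j : ℂ)) 𝒰 (𝓝 0) := by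
            have := (Complex.continuous_ofReal.tendsto 0).comp hεt'
            rw [Complex.ofReal_zero] at this
            exact this
          have h5 : Tendsto (fun j => -(c₀ * (ε j : ℂ))) 𝒰 (𝓝 0) := by
            have := (h4.const_mul c₀).neg
            simpa using this
          have := (Complex.continuous_exp.tendsto 0).comp h5
          rw [Complex.exp_zero] at this
          exact this
        have := h3.smul (hconv' y hy w hw)
        rw [one_smul] at this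
        exact this
      have h3 := nd_rot h𝒰n hεt' (-c₀) h2 h1
      rw [zero_sub, neg_smul, neg_neg] at h3
      refine h3.congr fun j => ?_
      simp only [nd, hT']
      rw [ContinuousLinearMap.smul_apply, ContinuousLinearMap.smul_apply, smul_smul,
        ← Complex.exp_add]
      have : -(-c₀ * (ε j : ℂ)) + -(c₀ * (ε j : ℂ)) = 0 := by ring
      rw [this, Complex.exp_zero, one_smul]
    -- `c₀` is real
    have hc00 : c₀ = 0 := by
      have h1 := hback z₀ hz₀ w₀ hw₀L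
      have h2 : Tendsto (fun j => (inner ℂ w₀ (nd T ε w₀ j) : ℂ)) 𝒰 (𝓝 (inner ℂ w₀ (c₀ • w₀))) :=
        tendsto_const_nhds.inner h1
      have h3 : ∀ j, (inner ℂ w₀ (nd T ε w₀ j) : ℂ).im = 0 := by
        intro j
        simp only [nd]
        rw [inner_smul_right, inner_sub_right, hreal, inner_self_eq_norm_sq_to_K]
        have e : (((ε j)⁻¹ : ℝ) : ℂ) * (((‖(inner ℂ w₀ (V j w₀) : ℂ)‖ : ℝ) : ℂ) -
            ((‖w₀‖ : ℝ) : ℂ) ^ 2) =
            (((ε j)⁻¹ * (‖(inner ℂ w₀ (V j w₀) : ℂ)‖ - ‖w₀‖ ^ 2) : ℝ) : ℂ) := by push_cast; ring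
        have e' := congrArg Complex.im e
        rw [Complex.ofReal_im] at e'
        exact e'
      have h4 : (inner ℂ w₀ (c₀ • w₀) : ℂ).im = 0 := by
        have h5 := (Complex.continuous_im.tendsto _).comp h2
        refine tendsto_nhds_unique h5 ?_
        refine tendsto_const_nhds.congr fun j => ?_
        exact (h3 j).symm
      rw [inner_smul_right, inner_self_eq_norm_sq_to_K] at h4
      have h5 : (c₀ * ((‖w₀‖ : ℝ) : ℂ) ^ 2).im = c₀.im * ‖w₀‖ ^ 2 := by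
        rw [← Complex.ofReal_pow, Complex.mul_im, Complex.ofReal_im, Complex.ofReal_re]
        ring
      have h6 : c₀.im * ‖w₀‖ ^ 2 = 0 := by
        rw [← h5]; exact h4
      have h7 : c₀.im = 0 := by
        have : ‖w₀‖ ^ 2 ≠ 0 := pow_ne_zero 2 (norm_ne_zero_iff.2 hw₀0)
        exact (mul_eq_zero.1 h6).resolve_right this
      have h8 : c₀.re = 0 := by
        have := congrArg Complex.re him
        rw [Complex.conj_re, Complex.neg_re] at this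
        linarith
      exact Complex.ext h8 h7
    -- contradiction with the normalisation
    have h1 : Tendsto (fun j => ∑ i, ‖nd T ε (γ₀ (cl (B₀ z₀) τ i)) j‖) 𝒰
        (𝓝 (∑ _i : Option (Fin s), (0 : ℝ))) := by
      refine tendsto_finsetSum _ fun i _ => ?_
      obtain ⟨y', hy', hy'2⟩ := hcl _ hτ hττ₀ i
      rw [← hy'2]
      have := (hback y' hy'.1 _ (hb₀.γ_mem hy'.2)).norm
      rwa [hc00, zero_smul, norm_zero] at this
    rw [Finset.sum_const_zero] at h1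
    have h2 : Tendsto (fun j => ∑ i, ‖nd T ε (γ₀ (cl (B₀ z₀) τ i)) j‖) 𝒰 (𝓝 1) := by
      refine (tendsto_const_nhds (x := (1 : ℝ))).congr' ?_
      filter_upwards [h𝒰n] with j hj
      have e1 : ∀ i, ‖nd T ε (γ₀ (cl (B₀ z₀) τ i)) j‖ =
          (ε j)⁻¹ * ‖T j (γ₀ (cl (B₀ z₀) τ i)) - γ₀ (cl (B₀ z₀) τ i)‖ := by
        intro i
        rw [nd, norm_smul, Complex.norm_real, Real.norm_of_nonneg (by positivity)]
      simp only [e1]
      rw [← Finset.mul_sum]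
      exact (inv_mul_cancel₀ hj.ne').symm
    exact zero_ne_one (tendsto_nhds_unique h1 h2)

end Vale.Agent.P284.H451.G
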