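import Vale.Agent.P284.H451.G.Geo
import Vale.Agent.P284.H221.GFS
import Vale.Agent.P284.H885.Ker1
import Vale.Agent.P284.H366.ThE

/-!
# P284 (helper451), target G: the first alternative of `RigStmt`

Elements `g j` of `ker c` which preserve the lines of `v` act trivially on `Θ`, on all fibres outside a
meagre set.
-/

open scoped Manifold ContDiff Topology InnerProductSpace ComplexConjugate
open Filter Set Metric

noncomputable section

set_option linter.unusedSectionVars false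

namespace Vale.Agent.P284.H451.G

open Vale.Agent.P272.K Vale.Agent.P284.H894 Vale.Agent.P284.H894.G Vale.Agent.P284.H894.V
  Vale.Agent.P284.H894.W Vale.Agent.P284.H573 Vale.Agent.P284.H213.Grp Vale.Agent.P284.H395
  Vale.Agent.P284.H619 Vale.Agent.P284.H625 Vale.Agent.P284.H378 Vale.Agent.P284.H478.G
  Vale.Agent.P284.H212 Vale.Agent.P284.H885.Ker

/-- `tq` as a continuous linear map -/
def tqc (q r : ℕ) : Cm (q + r) →L[ℂ] Cm q :=
  ContinuousLinearMap.pi fun j => ContinuousLinearMap.proj (Fin.castAdd r j)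

theorem tqc_apply {q r : ℕ} (x : Cm (q + r)) : tqc q r x = tq x := rfl

theorem tqc_surj (q r : ℕ) : Function.Surjective (tqc q r) := by
  intro t
  refine ⟨Fin.addCases t 0, ?_⟩
  rw [tqc_apply]
  funext j
  simp [tq]

theorem fderiv_tq {n q r : ℕ} {b : Cm n → Cm (q + r)} {w : Cm n} (hb : DifferentiableAt ℂ b w) :
    fderiv ℂ (fun w => tq (b w)) w = (tqc q r).comp (fderiv ℂ b w) :=
  ((tqc q r).hasFDerivAt.comp w hb.hasFDerivAt).fderiv

section
variable {n q r k s m : ℕ} {X E Γ W H : Type} [TopologicalSpace X] [ChartedSpace (Cm n) X]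
  [TopologicalSpace E] [Group Γ] [MulAction Γ E]
  [NormedAddCommGroup W] [InnerProductSpace ℂ W] [NormedAddCommGroup H] [InnerProductSpace ℂ H]
  {p : E → X} {F : E → Cm q} {v : E → Chart n X → (Fin (q + r) → Cm n) → H}
  {U : Γ → (H →ₗᵢ[ℂ] H)} {π : Γ →* (W ≃ₗᵢ[ℂ] W)} {Θ : E → Chart n X → (Cm n →L[ℂ] W)}
  {N : Cm k →L[ℂ] Cm q} {z : E} {e : Chart n X} {b : Cm n → Cm (q + r)}
  {F0 : Cm (q + r) → W} {β : Cm (q + r) → Cm s} {γ : Cm s → H} {τ : Cm s → Cm q} {𝒢 : Set E}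

/-- elements preserving the lines of `v` act trivially on `Θ` at the good points -/
theorem fix_good [CompleteSpace W] [CompleteSpace H] (hp : IsCoveringMap p)
    (hv : HForm n (q + r) m p H v) (hz : ∀ᶠ y in 𝓝 z, y ∈ 𝒢)
    (h : LC p F m v U π Θ N z e b F0 β γ τ) {g : Γ}
    (hg : ∀ y ∈ 𝒢, ∀ e, At e (p y) → ∀ ξ, ∃ a : ℂ, U g (v y e ξ) = a • v y e ξ) :
    ∀ ξ ∈ VS p F z e, π g (Θ z e ξ) = Θ z e ξ := by
  have hnear := lc_near hp hv h
  have hmap : map (fun y => b (e (p y))) (𝓝 z) = 𝓝 (b (e (p z))) := by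
    have k1 : HasStrictFDerivAt b (fderiv ℂ b (e (p z))) (e (p z)) := h.ban.hasStrictFDerivAt
    have k3 := k1.map_nhds_eq_of_surj (LinearMap.range_eq_top.2 h.bsurj)
    rw [← k3, ← map_ep hp h.mem, map_map]
    rfl
  obtain ⟨ρ, hρ, hsh⟩ := h.sheet
  have h1 : ∀ᶠ x in 𝓝 (b (e (p z))), ∃ a : ℂ, U g (γ (β x)) = a • γ (β x) := by
    have k1 : (fun y => b (e (p y))) '' {y | y ∈ 𝒢 ∧ At e (p y) ∧
        ∃ ξ, v y e ξ = γ (β (b (e (p y))))} ∈ 𝓝 (b (e (p z))) := by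
      rw [← hmap]
      refine image_mem_map ?_
      filter_upwards [hz, hnear] with y h1 h2
      exact ⟨h1, h2.1, h2.2.2.2.2⟩
    filter_upwards [k1] with x hx
    obtain ⟨y, ⟨h1, h2, ξ, h3⟩, rfl⟩ := hx
    obtain ⟨a, ha⟩ := hg y h1 e h2 ξ
    rw [h3] at ha
    exact ⟨a, ha⟩
  have h2 := hsh g (b (e (p z))) (mem_ball_self hρ) id analyticAt_id (mem_ball_self hρ)
    ⟨0, Eventually.of_forall fun x => by simp⟩ h1
  have h3 := h2.self_of_nhds
  intro ξ hξ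
  have ht := (mem_VS hp h.mem (f := fun w => tq (b w)) h.t_eq).1 hξ
  have hpot := h.pot.self_of_nhds ξ hξ
  have hc2 : fderiv ℂ (fun w => F0 (b w)) (e (p z)) ξ =
      fderiv ℂ F0 (b (e (p z))) (fderiv ℂ b (e (p z)) ξ) := by
    have h5 : fderiv ℂ (fun w => F0 (b w)) (e (p z)) = _ :=
      (h.F0an.differentiableAt.hasFDerivAt.comp (e (p z))
      h.ban.differentiableAt.hasFDerivAt).fderiv
    rw [h5]; rfl
  rw [hpot, hc2]
  rw [fderiv_tq h.ban.differentiableAt] at ht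
  exact (h3 _ ht).symm

/-- elements preserving the lines of `v` act trivially on `Θ`, on a fibre in which the complement of the
good set is thin -/
theorem fix_fib [CompleteSpace W] [CompleteSpace H] [IsManifold 𝓘(ℂ, Cm n) ω X]
    (hp : IsCoveringMap p) (hF : HolE n p F) {K : Subgroup Γ} {M₀ : Set (Cm q)}
    (hΘ : ThE p F K π Θ M₀) (hL : LeafE s p F m v U π Θ N 𝒢) {t : Cm q}
    (hreg : ∀ y, F y = t → Reg (n := n) p F y)
    (hthin : ∀ (y : E) (e : Chart n X), F y = t → At e (p y) → ∃ h : Cm n → ℂ,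
        AnalyticAt ℂ h (e (p y)) ∧ (∃ᶠ y' in 𝓝 y, F y' = t ∧ h (e (p y')) ≠ 0) ∧
        ∀ᶠ y' in 𝓝 y, h (e (p y')) ≠ 0 → y' ∈ 𝒢) {g : Γ}
    (hg : ∀ y ∈ 𝒢, ∀ e, At e (p y) → ∀ ξ, ∃ a : ℂ, U g (v y e ξ) = a • v y e ξ) :
    ∀ y e, F y = t → At e (p y) → ∀ ξ ∈ VS p F y e, π g (Θ y e ξ) = Θ y e ξ := by
  -- the good points
  have hgood : ∀ y ∈ 𝒢, F y = t → ∀ e, At e (p y) → ∀ ξ ∈ VS p F y e,
      π g (Θ y e ξ) = Θ y e ξ := by
    intro y hy hyt e he ξ hξ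
    obtain ⟨e₁, b, F0, β, γ, τ, hLC⟩ := hL.chart y hy
    have h1 := fix_good hp hL.form (hL.good.isOpen.mem_nhds hy) hLC hg
    have h2 := hΘ.change y e e₁ (hreg y hyt) he hLC.mem ξ hξ
    rw [h2]
    refine h1 _ ?_
    rw [H366.mem_VS_iff hp hF hLC.mem]
    have h3 := (H366.mem_VS_iff hp hF he).1 hξ
    rw [H366.dFe_change hp hF he hLC.mem] at h3
    exact h3
  intro y e hyt he ξ hξ
  obtain ⟨h, -, hfr, hev⟩ := hthin y e hyt he
  obtain ⟨A, hA, hAe⟩ := hΘ.hol y e (hreg y hyt) he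
  obtain ⟨f, hf, hfan⟩ := hF y e he
  obtain ⟨P, hP, hPe⟩ := vert_proj hfan (hreg y hyt e f he hf)
  have hcont : ContinuousAt (fun y' => e (p y')) y := by
    have := map_ep hp he
    rw [ContinuousAt, Tendsto, this]
  have hΦ : ContinuousAt (fun y' => π g (A (e (p y')) (P (e (p y')) ξ)) -
      A (e (p y')) (P (e (p y')) ξ)) y := by
    have h1 : ContinuousAt (fun z => A z (P z ξ)) (e (p y)) :=
      hA.continuousAt.clm_apply (hP.continuousAt.clm_apply continuousAt_const)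
    have h2 : ContinuousAt (fun y' => A (e (p y')) (P (e (p y')) ξ)) y :=
      ContinuousAt.comp (f := fun y' => e (p y')) (g := fun z => A z (P z ξ)) h1 hcont
    exact ((π g).continuous.continuousAt.comp h2).sub h2
  have h0 : π g (A (e (p y)) (P (e (p y)) ξ)) - A (e (p y)) (P (e (p y)) ξ) = 0 := by
    by_contra hne
    have h1 := hΦ.eventually_ne hne
    have h2 := (ev_iff hp he).2 hPe
    have h3 := hf.eventually_nhds
    obtain ⟨y', ⟨hy't, hh⟩, k1, k2, k3, k4, k5, k6⟩ := (hfr.and_eventually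
      (h1.and (h2.and (h3.and (hev.and (hAe.and (at_ev hp he))))))).exists
    apply k1
    have hV : P (e (p y')) ξ ∈ VS p F y' e := (mem_VS hp k6 k3).2 (k2.1 ξ)
    rw [← k5 _ hV, hgood y' (k4 hh) hy't e k6 _ hV, sub_self]
  have h1 : P (e (p y)) ξ = ξ := hPe.self_of_nhds.2 ξ ((mem_VS hp he hf).1 hξ)
  rw [h1, ← hAe.self_of_nhds ξ hξ] at h0
  exact sub_eq_zero.1 h0

end

/-- **The first alternative of `RigStmt`.** -/
theorem alt1 {n q r k s m : ℕ} {X : Type} [TopologicalSpace X] [T2Space X] [CompactSpace X]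
    [ChartedSpace (Cm n) X] [IsManifold 𝓘(ℂ, Cm n) ω X]
    {w : Chart n X → Cm n → Matrix (Fin n) (Fin n) ℂ} {E Γ : Type}
    [TopologicalSpace E] [ConnectedSpace E] [Group Γ] [MulAction Γ E] {p : E → X}
    (hG : IsGalois Γ p) {F : E → Cm q} {c : Γ → Cm q} {K : Subgroup Γ} (hFB : ∃ B, HolB p w F B)
    (hFe : ∀ g y, F (g • y) = F y + c g) (hK : KPkg Γ q c K) (hgc : GenConn (n := n) p F)
    {W H : Type} [NormedAddCommGroup W] [InnerProductSpace ℂ W] [CompleteSpace W]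
    [NormedAddCommGroup H] [InnerProductSpace ℂ H] [CompleteSpace H]
    {π : Γ →* (W ≃ₗᵢ[ℂ] W)} {Θ : E → Chart n X → (Cm n →L[ℂ] W)} {M₀ : Set (Cm q)}
    (hΘ : ThE p F K π Θ M₀) {v : E → Chart n X → (Fin (q + r) → Cm n) → H}
    {U : Γ → (H →ₗᵢ[ℂ] H)} {N : Cm k →L[ℂ] Cm q} {𝒢 : Set E}
    (hL : LeafE s p F m v U π Θ N 𝒢) {g : ℕ → Γ}
    (hg : ∀ᶠ j in atTop, ∀ y ∈ 𝒢, ∀ e, At e (p y) → ∀ ξ, ∃ a : ℂ,
      U (g j) (v y e ξ) = a • v y e ξ) :
    ∃ M : Set (Cm q), IsMeagre M ∧ ∀ t ∉ M,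
      ∀ᶠ j in atTop, ∀ y e, F y = t → At e (p y) → ∀ ξ ∈ VS p F y e, π (g j) (Θ y e ξ) = Θ y e ξ := by
  obtain ⟨M, hM, hgf⟩ := H221.gfStmt n q X E Γ p hG w F c hFB hFe hK.lat.disc 𝒢 hL.good hL.inv
  obtain ⟨T, hT, hTi, hTc⟩ := hgc
  have hTm : IsMeagre T := (hT.isNowhereDense_iff.2 hTi).isMeagre
  obtain ⟨B, hB⟩ := hFB
  refine ⟨M ∪ T, hM.union hTm, fun t ht => ?_⟩
  rw [mem_union, not_or] at ht
  filter_upwards [hg] with j hj
  exact fix_fib hG.cov (H885.Ker.holE_of hB) hΘ hL (hTc t ht.2).2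
    (hgf t ht.1 (hTc t ht.2).2) hj

end Vale.Agent.P284.H451.G
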