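import Vale.Agent.P284.H573.HForm
import Mathlib.Analysis.InnerProductSpace.Basic
import Mathlib.Analysis.Calculus.MeanValue
import Mathlib.Analysis.Normed.Module.FiniteDimension

/-!
# P284 (helper451), target G: the chord lemma

`γ : ℂˢ → H` analytic, projectively immersive at `x₀`. For `x, x'` near `x₀` and every `a : ℂ` the chord
`a γ(x') - γ(x)` is controlled by its products with the vectors of a cluster `γ(x₁ + τ e_i)`.
-/

open scoped Topology ContDiff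
open Filter Set Metric

noncomputable section

namespace Vale.Agent.P284.H451.G

open Vale.Agent.P272.K Vale.Agent.P284.H573

variable {s : ℕ} {H : Type} [NormedAddCommGroup H] [InnerProductSpace ℂ H]

/-- the points of the cluster -/
def cl (x₁ : Cm s) (τ : ℝ) : Option (Fin s) → Cm s
  | none => x₁
  | some i => x₁ + (τ : ℂ) • Pi.single i 1

@[simp] theorem cl_none (x₁ : Cm s) (τ : ℝ) : cl x₁ τ none = x₁ := rfl

@[simp] theorem cl_some (x₁ : Cm s) (τ : ℝ) (i : Fin s) :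
    cl x₁ τ (some i) = x₁ + (τ : ℂ) • Pi.single i 1 := rfl

theorem dist_cl (x₁ : Cm s) {τ : ℝ} (hτ : 0 ≤ τ) (i : Option (Fin s)) : dist (cl x₁ τ i) x₁ ≤ τ := by
  rcases i with _ | i
  · simpa using hτ
  · rw [cl_some, dist_eq_norm, add_sub_cancel_left, norm_smul, Complex.norm_real,
      Real.norm_of_nonneg hτ]
    have : ‖(Pi.single i 1 : Cm s)‖ ≤ 1 := by
      rw [pi_norm_le_iff_of_nonneg zero_le_one]
      intro j
      rw [Pi.single_apply]
      split_ifs <;> simp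
    nlinarith

/-- the local constants of `γ` -/
structure Chd (γ : Cm s → H) (x₀ : Cm s) (r : ℝ) : Prop where
  pos : 0 < r
  an : ∀ x ∈ ball x₀ (2 * r), AnalyticAt ℂ γ x
  imm : ∀ x ∈ ball x₀ (2 * r), ImmAt γ x
  bd : ∃ B : ℝ, 0 < B ∧ (∀ x ∈ ball x₀ (2 * r), ‖γ x‖ ≤ B ∧ B⁻¹ ≤ ‖γ x‖) ∧
    ∀ x ∈ ball x₀ (2 * r), ∀ x' ∈ ball x₀ (2 * r), ‖γ x' - γ x‖ ≤ B * ‖x' - x‖
  orth : ∀ x ∈ ball x₀ r, ∀ x' ∈ ball x₀ r, inner ℂ (γ x) (γ x') ≠ 0
  key : ∀ τ, 0 < τ → τ < r → ∃ C : ℝ, 0 < C ∧ ∀ x₁ ∈ ball x₀ r, ∀ x ∈ ball x₀ r, ∀ x' ∈ ball x₀ r,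
    ∀ a : ℂ, ‖a - 1‖ + ‖a • (x' - x)‖ ≤
      C * ∑ i, ‖inner ℂ (γ (cl x₁ τ i)) (a • γ x' - γ x)‖

/-- the linear map of the jets -/
def Jt (γ : Cm s → H) (x₀ : Cm s) : ℂ × Cm s →L[ℂ] H :=
  (ContinuousLinearMap.fst ℂ ℂ (Cm s)).smulRight (γ x₀) +
    (fderiv ℂ γ x₀).comp (ContinuousLinearMap.snd ℂ ℂ (Cm s))

theorem Jt_apply (γ : Cm s → H) (x₀ : Cm s) (α : ℂ) (η : Cm s) :
    Jt γ x₀ (α, η) = α • γ x₀ + fderiv ℂ γ x₀ η := rfl

/-- the basis vectors -/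
def kap (γ : Cm s → H) (x₀ : Cm s) : Option (Fin s) → H
  | none => γ x₀
  | some i => fderiv ℂ γ x₀ (Pi.single i 1)

theorem Jt_eq_sum (γ : Cm s → H) (x₀ : Cm s) (α : ℂ) (η : Cm s) :
    Jt γ x₀ (α, η) = α • kap γ x₀ none + ∑ i, η i • kap γ x₀ (some i) := by
  rw [Jt_apply]
  congr 1
  have h : η = ∑ i, η i • (Pi.single i 1 : Cm s) := by
    funext j
    simp [Finset.sum_apply, Pi.single_apply]
  conv_lhs => rw [h]
  rw [map_sum]
  refine Finset.sum_congr rfl fun i _ => ?_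
  rw [map_smul]
  rfl

/-- lower bound for the Gram pairing -/
theorem gram_lower {γ : Cm s → H} {x₀ : Cm s} (h : ImmAt γ x₀) :
    ∃ c : ℝ, 0 < c ∧ ∀ (α : ℂ) (η : Cm s), c * (‖α‖ + ‖η‖) ≤
      ∑ k, ‖inner ℂ (kap γ x₀ k) (Jt γ x₀ (α, η))‖ := by
  classical
  set Φ : (ℂ × Cm s) →ₗ[ℂ] (Option (Fin s) → ℂ) :=
    LinearMap.pi fun k => (innerSL ℂ (kap γ x₀ k)).toLinearMap ∘ₗ (Jt γ x₀ : ℂ × Cm s →ₗ[ℂ] H) with hΦ
  have hΦa : ∀ p k, Φ p k = inner ℂ (kap γ x₀ k) (Jt γ x₀ p) := fun p k => rfl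
  have hinj : LinearMap.ker Φ = ⊥ := by
    rw [LinearMap.ker_eq_bot']
    rintro ⟨α, η⟩ h0
    have h1 : ∀ k, inner ℂ (kap γ x₀ k) (Jt γ x₀ (α, η)) = 0 := fun k => by
      rw [← hΦa, h0]; rfl
    have h2 : inner ℂ (Jt γ x₀ (α, η)) (Jt γ x₀ (α, η)) = 0 := by
      conv_lhs => arg 2; rw [Jt_eq_sum]
      rw [inner_add_left, inner_smul_left, h1, sum_inner]
      rw [Finset.sum_eq_zero fun i _ => by rw [inner_smul_left, h1, mul_zero]]
      simp
    have h3 : Jt γ x₀ (α, η) = 0 := inner_self_eq_zero.1 h2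
    rw [Jt_apply] at h3
    have h4 : fderiv ℂ γ x₀ η = (-α) • γ x₀ := by
      rw [neg_smul]; exact eq_neg_of_add_eq_zero_right h3
    have h5 := h.2 η _ h4
    subst h5
    rw [map_zero, add_zero] at h3
    have h6 := (smul_eq_zero.1 h3).resolve_right h.1
    rw [h6]; rfl
  obtain ⟨K, hK, hA⟩ := Φ.exists_antilipschitzWith hinj
  have hK' : (0 : ℝ) < K := hK
  refine ⟨(2 * K)⁻¹, by positivity, fun α η => ?_⟩
  have h1 := hA.le_mul_dist (α, η) 0
  rw [map_zero, dist_zero_right, dist_zero_right] at h1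
  have h2 : ‖Φ (α, η)‖ ≤ ∑ k, ‖inner ℂ (kap γ x₀ k) (Jt γ x₀ (α, η))‖ := by
    rw [pi_norm_le_iff_of_nonneg (Finset.sum_nonneg fun _ _ => norm_nonneg _)]
    intro k
    rw [hΦa]
    exact Finset.single_le_sum (f := fun k => ‖inner ℂ (kap γ x₀ k) (Jt γ x₀ (α, η))‖)
      (fun _ _ => norm_nonneg _) (Finset.mem_univ k)
  have h3 : ‖α‖ ≤ ‖(α, η)‖ := norm_fst_le (α, η)
  have h4 : ‖η‖ ≤ ‖(α, η)‖ := norm_snd_le (α, η)
  have h5 : ‖α‖ + ‖η‖ ≤ 2 * K * ∑ k, ‖inner ℂ (kap γ x₀ k) (Jt γ x₀ (α, η))‖ := by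
    have : (K : ℝ) * ‖Φ (α, η)‖ ≤ K * ∑ k, ‖inner ℂ (kap γ x₀ k) (Jt γ x₀ (α, η))‖ := by gcongr
    linarith
  rw [inv_mul_le_iff₀ (by positivity)]
  exact h5

/-- `ImmAt` is an open condition -/
theorem imm_open [CompleteSpace H] {γ : Cm s → H} {x₀ : Cm s} (han : AnalyticAt ℂ γ x₀) (h : ImmAt γ x₀) :
    ∀ᶠ x in 𝓝 x₀, ImmAt γ x := by
  classical
  have hJi : ∀ x, ImmAt γ x ↔ Function.Injective (Jt γ x) := by
    intro x
    constructor
    · intro hx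
      rw [injective_iff_map_eq_zero]
      rintro ⟨α, η⟩ h3
      rw [Jt_apply] at h3
      have h4 : fderiv ℂ γ x η = (-α) • γ x := by
        rw [neg_smul]; exact eq_neg_of_add_eq_zero_right h3
      have h5 := hx.2 η _ h4
      subst h5
      rw [map_zero, add_zero] at h3
      have h6 := (smul_eq_zero.1 h3).resolve_right hx.1
      rw [h6]; rfl
    · intro hx
      refine ⟨fun h0 => ?_, fun η c hη => ?_⟩
      · have h1 : Jt γ x (1, 0) = Jt γ x 0 := by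
          rw [Jt_apply, h0, map_zero, smul_zero, add_zero, map_zero]
        have h2 := congrArg Prod.fst (hx h1)
        exact one_ne_zero h2
      · have h1 : Jt γ x (-c, η) = Jt γ x 0 := by
          rw [Jt_apply, hη, map_zero, neg_smul, neg_add_cancel]
        exact congrArg Prod.snd (hx h1)
  have hc : ContinuousAt (fun x => Jt γ x) x₀ := by
    have h1 : ContinuousAt γ x₀ := han.continuousAt
    have h2 : ContinuousAt (fderiv ℂ γ) x₀ := han.fderiv.continuousAt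
    unfold Jt
    refine ContinuousAt.add ?_ ?_
    · exact ((ContinuousLinearMap.smulRightL ℂ (ℂ × Cm s) H
        (ContinuousLinearMap.fst ℂ ℂ (Cm s))).continuous.continuousAt).comp h1
    · exact ((ContinuousLinearMap.compL ℂ (ℂ × Cm s) (Cm s) H).flip
        (ContinuousLinearMap.snd ℂ ℂ (Cm s))).continuous.continuousAt.comp h2
  have ho : IsOpen {L : (ℂ × Cm s) →L[ℂ] H | Function.Injective L} :=
    ContinuousLinearMap.isOpen_injective
  filter_upwards [hc.eventually (ho.mem_nhds ((hJi x₀).1 h))] with x hx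
  exact (hJi x).2 hx

/-- existence of the constants; `r` can be made small -/
theorem exists_chd [CompleteSpace H] {γ : Cm s → H} {x₀ : Cm s} (han : AnalyticAt ℂ γ x₀)
    (h : ImmAt γ x₀) {R₀ : ℝ} (hR₀ : 0 < R₀) : ∃ r, r ≤ R₀ ∧ Chd γ x₀ r := by
  classical
  obtain ⟨c, hc, hgram⟩ := gram_lower h
  set M : ℝ := ‖Jt γ x₀‖ + ‖γ x₀‖ + ‖fderiv ℂ γ x₀‖ + 1 with hM
  have hM1 : 1 ≤ M := by
    have h1 := norm_nonneg (Jt γ x₀)
    have h2 := norm_nonneg (γ x₀)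
    have h3 := norm_nonneg (fderiv ℂ γ x₀)
    linarith
  have hkM : ∀ k, ‖kap γ x₀ k‖ ≤ M := by
    have h1 := norm_nonneg (Jt γ x₀)
    have h2 := norm_nonneg (γ x₀)
    have h3 := norm_nonneg (fderiv ℂ γ x₀)
    rintro (_ | i)
    · show ‖γ x₀‖ ≤ M
      linarith
    · show ‖fderiv ℂ γ x₀ (Pi.single i 1)‖ ≤ M
      have h4 : ‖(Pi.single i 1 : Cm s)‖ ≤ 1 := by
        rw [pi_norm_le_iff_of_nonneg zero_le_one]
        intro j
        rw [Pi.single_apply]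
        split_ifs <;> simp
      have h5 := (fderiv ℂ γ x₀).le_opNorm (Pi.single i 1)
      nlinarith
  set n₁ : ℝ := (s : ℝ) + 1 with hn₁
  have hn₁0 : 0 < n₁ := by positivity
  set δ : ℝ := min 1 (min (‖γ x₀‖ / 2) (c / (2 * n₁ * (2 * M + 1)))) with hδ
  have hγ0 : 0 < ‖γ x₀‖ := norm_pos_iff.2 h.1
  have hδ0 : 0 < δ := by
    refine lt_min one_pos (lt_min (by positivity) (by positivity))
  have hδ1 : δ ≤ 1 := min_le_left _ _
  have hδ2 : δ ≤ ‖γ x₀‖ / 2 := (min_le_right _ _).trans (min_le_left _ _)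
  have hδ3 : δ ≤ c / (2 * n₁ * (2 * M + 1)) := (min_le_right _ _).trans (min_le_right _ _)
  have hδ4 : n₁ * (δ * (2 * M + 1)) ≤ c / 2 := by
    have h1 : 0 < 2 * n₁ * (2 * M + 1) := by positivity
    rw [le_div_iff₀ h1] at hδ3
    linarith
  -- the radius
  have e1 := han.eventually_analyticAt
  have e2 := imm_open han h
  have e3 : ∀ᶠ x in 𝓝 x₀, ‖γ x - γ x₀‖ < δ := by
    have := (han.continuousAt.sub (continuousAt_const (y := γ x₀))).norm
    have h2 : ContinuousAt (fun x => ‖γ x - γ x₀‖) x₀ := this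
    refine h2.eventually_lt_const ?_
    simpa using hδ0
  have e4 : ∀ᶠ x in 𝓝 x₀, ‖fderiv ℂ γ x - fderiv ℂ γ x₀‖ < δ := by
    have h2 : ContinuousAt (fun x => ‖fderiv ℂ γ x - fderiv ℂ γ x₀‖) x₀ :=
      (han.fderiv.continuousAt.sub (continuousAt_const (y := fderiv ℂ γ x₀))).norm
    refine h2.eventually_lt_const ?_
    simpa using hδ0
  have e5 : ∀ᶠ q : Cm s × Cm s in 𝓝 (x₀, x₀), inner ℂ (γ q.1) (γ q.2) ≠ 0 := by
    have h2 : ContinuousAt (fun q : Cm s × Cm s => inner ℂ (γ q.1) (γ q.2)) (x₀, x₀) := by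
      refine ContinuousAt.inner (𝕜 := ℂ) ?_ ?_
      · exact ContinuousAt.comp (g := γ) (f := Prod.fst) (x := (x₀, x₀)) han.continuousAt
          continuousAt_fst
      · exact ContinuousAt.comp (g := γ) (f := Prod.snd) (x := (x₀, x₀)) han.continuousAt
          continuousAt_snd
    refine h2.eventually_ne ?_
    simpa using h.1
  obtain ⟨R₁, hR₁, hb⟩ := Metric.eventually_nhds_iff_ball.1 (e1.and (e2.and (e3.and e4)))
  obtain ⟨R₂, hR₂, hb2⟩ := Metric.eventually_nhds_iff_ball.1 e5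
  set r : ℝ := min R₀ (min (R₁ / 2) R₂) with hr
  have hr0 : 0 < r := by
    refine lt_min hR₀ (lt_min (by positivity) hR₂)
  have hrR1 : 2 * r ≤ R₁ := by
    have := (min_le_right R₀ (min (R₁ / 2) R₂)).trans (min_le_left _ _)
    linarith
  have hrR2 : r ≤ R₂ := (min_le_right R₀ (min (R₁ / 2) R₂)).trans (min_le_right _ _)
  have hB : ∀ x ∈ ball x₀ (2 * r), AnalyticAt ℂ γ x ∧ ImmAt γ x ∧ ‖γ x - γ x₀‖ < δ ∧
      ‖fderiv ℂ γ x - fderiv ℂ γ x₀‖ < δ := fun x hx => hb x (ball_subset_ball hrR1 hx)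
  have hsub : ball x₀ r ⊆ ball x₀ (2 * r) := ball_subset_ball (by linarith)
  have hx₀ : x₀ ∈ ball x₀ (2 * r) := mem_ball_self (by linarith)
  have hdiff : ∀ x ∈ ball x₀ (2 * r), DifferentiableAt ℂ γ x := fun x hx => (hB x hx).1.differentiableAt
  -- mean value
  have hmv : ∀ x ∈ ball x₀ (2 * r), ∀ x' ∈ ball x₀ (2 * r),
      ‖γ x' - γ x - fderiv ℂ γ x₀ (x' - x)‖ ≤ δ * ‖x' - x‖ := by
    intro x hx x' hx'
    exact (convex_ball x₀ (2 * r)).norm_image_sub_le_of_norm_fderiv_le' (𝕜 := ℂ)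
      (fun y hy => hdiff y hy) (fun y hy => (hB y hy).2.2.2.le) hx hx'
  have hlip : ∀ x ∈ ball x₀ (2 * r), ∀ x' ∈ ball x₀ (2 * r), ‖γ x' - γ x‖ ≤ M * ‖x' - x‖ := by
    intro x hx x' hx'
    refine (convex_ball x₀ (2 * r)).norm_image_sub_le_of_norm_fderiv_le (𝕜 := ℂ)
      (fun y hy => hdiff y hy) (fun y hy => ?_) hx hx'
    have h1 := (hB y hy).2.2.2
    have h2 := norm_sub_norm_le (fderiv ℂ γ y) (fderiv ℂ γ x₀)
    have h3 := norm_nonneg (Jt γ x₀)
    linarith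
  refine ⟨r, min_le_left _ _, hr0, fun x hx => (hB x hx).1, fun x hx => (hB x hx).2.1, ?_, ?_, ?_⟩
  · refine ⟨max M (2 * ‖γ x₀‖⁻¹), lt_of_lt_of_le (by linarith) (le_max_left _ _),
      fun x hx => ⟨?_, ?_⟩, fun x hx x' hx' => ?_⟩
    · have h1 := (hB x hx).2.2.1
      have h2 := norm_sub_norm_le (γ x) (γ x₀)
      have h3 := norm_nonneg (Jt γ x₀)
      have h4 := norm_nonneg (fderiv ℂ γ x₀)
      refine le_trans ?_ (le_max_left _ _)
      linarith
    · have h1 := (hB x hx).2.2.1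
      have h2 := norm_sub_norm_le (γ x₀) (γ x)
      rw [norm_sub_rev] at h2
      have h3 : (max M (2 * ‖γ x₀‖⁻¹))⁻¹ ≤ (2 * ‖γ x₀‖⁻¹)⁻¹ :=
        inv_anti₀ (by positivity) (le_max_right _ _)
      have h4 : (2 * ‖γ x₀‖⁻¹)⁻¹ = ‖γ x₀‖ / 2 := by field_simp
      rw [h4] at h3
      linarith
    · exact (hlip x hx x' hx').trans
        (mul_le_mul_of_nonneg_right (le_max_left _ _) (norm_nonneg _))
  · intro x hx x' hx'
    refine hb2 (x, x') ?_
    rw [mem_ball, Prod.dist_eq, max_lt_iff]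
    exact ⟨lt_of_lt_of_le (mem_ball.1 hx) hrR2, lt_of_lt_of_le (mem_ball.1 hx') hrR2⟩
  · intro τ hτ hτr
    have hCpos : 0 < 2 / c * (1 + n₁ * (2 / τ)) := by positivity
    refine ⟨2 / c * (1 + n₁ * (2 / τ)), hCpos, fun x₁ hx₁ x hx x' hx' a => ?_⟩
    set α : ℂ := a - 1 with hα
    set η : Cm s := a • (x' - x) with hη
    set Δ : H := a • γ x' - γ x with hΔ
    set J : H := Jt γ x₀ (α, η) with hJ
    set N : ℝ := ‖α‖ + ‖η‖ with hN
    have hN0 : 0 ≤ N := by positivity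
    have hxi : ∀ i, cl x₁ τ i ∈ ball x₀ (2 * r) := by
      intro i
      rw [mem_ball]
      have h1 := dist_cl x₁ hτ.le i
      have h2 := dist_triangle (cl x₁ τ i) x₁ x₀
      have h3 := mem_ball.1 hx₁
      linarith
    have hx2 := hsub hx
    have hx2' := hsub hx'
    -- `Δ` is close to `J`
    have hΔJ : ‖Δ - J‖ ≤ δ * N := by
      have h1 : Δ - J = α • (γ x - γ x₀) + a • (γ x' - γ x - fderiv ℂ γ x₀ (x' - x)) := by
        rw [hΔ, hJ, Jt_apply, hη, map_smul, hα]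
        module
      rw [h1]
      have h2 := (hB x hx2).2.2.1.le
      have h3 := hmv x hx2 x' hx2'
      calc ‖α • (γ x - γ x₀) + a • (γ x' - γ x - fderiv ℂ γ x₀ (x' - x))‖
          ≤ ‖α‖ * ‖γ x - γ x₀‖ + ‖a‖ * ‖γ x' - γ x - fderiv ℂ γ x₀ (x' - x)‖ := by
            refine (norm_add_le _ _).trans ?_
            rw [norm_smul, norm_smul]
        _ ≤ ‖α‖ * δ + ‖a‖ * (δ * ‖x' - x‖) := by gcongr
        _ = δ * (‖α‖ + ‖a‖ * ‖x' - x‖) := by ring
        _ = δ * N := by rw [hN, hη, norm_smul]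
    have hJn : ‖J‖ ≤ M * N := by
      have h1 := (Jt γ x₀).le_opNorm (α, η)
      have h2 : ‖(α, η)‖ ≤ N := by
        rw [Prod.norm_def]
        exact max_le (by rw [hN]; linarith [norm_nonneg η]) (by rw [hN]; linarith [norm_nonneg α])
      have h3 : ‖Jt γ x₀‖ ≤ M := by
        have h2 := norm_nonneg (γ x₀)
        have h3 := norm_nonneg (fderiv ℂ γ x₀)
        linarith
      calc ‖J‖ ≤ ‖Jt γ x₀‖ * ‖(α, η)‖ := h1
        _ ≤ M * N := by gcongr
    have hΔn : ‖Δ‖ ≤ (M + 1) * N := by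
      have h1 : Δ = J + (Δ - J) := by abel
      have h2 := norm_add_le J (Δ - J)
      rw [← h1] at h2
      have h3 : δ * N ≤ 1 * N := mul_le_mul_of_nonneg_right hδ1 hN0
      linarith
    -- the vectors of the cluster
    set κ : Option (Fin s) → H := fun k => match k with
      | none => γ x₁
      | some i => ((τ : ℂ)⁻¹) • (γ (cl x₁ τ (some i)) - γ x₁) with hκ
    have hτc : (τ : ℂ) ≠ 0 := by exact_mod_cast hτ.ne'
    have hκk : ∀ k, ‖κ k - kap γ x₀ k‖ ≤ δ := by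
      rintro (_ | i)
      · exact (hB x₁ (hsub hx₁)).2.2.1.le
      · show ‖((τ : ℂ)⁻¹) • (γ (cl x₁ τ (some i)) - γ x₁) - fderiv ℂ γ x₀ (Pi.single i 1)‖ ≤ δ
        have h1 := hmv x₁ (hsub hx₁) _ (hxi (some i))
        have h2 : cl x₁ τ (some i) - x₁ = (τ : ℂ) • (Pi.single i 1 : Cm s) := by
          rw [cl_some, add_sub_cancel_left]
        rw [h2, map_smul] at h1
        have h3 : ((τ : ℂ)⁻¹) • (γ (cl x₁ τ (some i)) - γ x₁) - fderiv ℂ γ x₀ (Pi.single i 1) =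
            ((τ : ℂ)⁻¹) • (γ (cl x₁ τ (some i)) - γ x₁ - (τ : ℂ) •
              fderiv ℂ γ x₀ (Pi.single i 1)) := by
          rw [smul_sub ((τ : ℂ)⁻¹) (γ (cl x₁ τ (some i)) - γ x₁), smul_smul,
            inv_mul_cancel₀ hτc, one_smul]
        rw [h3, norm_smul, norm_inv, Complex.norm_real, Real.norm_of_nonneg hτ.le,
          inv_mul_le_iff₀ hτ]
        refine h1.trans ?_
        rw [norm_smul, Complex.norm_real, Real.norm_of_nonneg hτ.le]
        have h4 : ‖(Pi.single i 1 : Cm s)‖ ≤ 1 := by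
          rw [pi_norm_le_iff_of_nonneg zero_le_one]
          intro j
          rw [Pi.single_apply]
          split_ifs <;> simp
        have h5 : τ * ‖(Pi.single i 1 : Cm s)‖ ≤ τ * 1 := by gcongr
        calc δ * (τ * ‖(Pi.single i 1 : Cm s)‖) ≤ δ * (τ * 1) := by gcongr
          _ = τ * δ := by ring
    -- the products
    have hprod : ∀ k, ‖inner ℂ (kap γ x₀ k) J‖ ≤ ‖inner ℂ (κ k) Δ‖ + δ * (2 * M + 1) * N := by
      intro k
      have h1 : inner ℂ (kap γ x₀ k) J = inner ℂ (κ k) Δ - (inner ℂ (κ k - kap γ x₀ k) Δ +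
          inner ℂ (kap γ x₀ k) (Δ - J)) := by
        have e1 := inner_sub_right (𝕜 := ℂ) (kap γ x₀ k) Δ J
        have e2 := inner_sub_left (𝕜 := ℂ) (κ k) (kap γ x₀ k) Δ
        rw [e2, e1]; ring
      rw [h1]
      refine (norm_sub_le _ _).trans ?_
      have h2 : ‖inner ℂ (κ k - kap γ x₀ k) Δ‖ ≤ δ * ((M + 1) * N) :=
        (norm_inner_le_norm _ _).trans (mul_le_mul (hκk k) hΔn (norm_nonneg _) hδ0.le)
      have h3 : ‖inner ℂ (kap γ x₀ k) (Δ - J)‖ ≤ M * (δ * N) :=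
        (norm_inner_le_norm _ _).trans (mul_le_mul (hkM k) hΔJ (norm_nonneg _) (by linarith))
      have h4 := norm_add_le (inner ℂ (κ k - kap γ x₀ k) Δ) (inner ℂ (kap γ x₀ k) (Δ - J))
      nlinarith
    have hsum : c * N ≤ ∑ k, ‖inner ℂ (κ k) Δ‖ + c / 2 * N := by
      have h1 := hgram α η
      have h2 : ∑ k, ‖inner ℂ (kap γ x₀ k) (Jt γ x₀ (α, η))‖ ≤
          ∑ k : Option (Fin s), (‖inner ℂ (κ k) Δ‖ + δ * (2 * M + 1) * N) :=
        Finset.sum_le_sum fun k _ => hprod k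
      rw [Finset.sum_add_distrib, Finset.sum_const, Finset.card_univ, Fintype.card_option,
        Fintype.card_fin, nsmul_eq_mul] at h2
      have h3 : ((s + 1 : ℕ) : ℝ) * (δ * (2 * M + 1) * N) ≤ c / 2 * N := by
        have h4 : ((s + 1 : ℕ) : ℝ) = n₁ := by push_cast; rfl
        rw [h4]
        calc n₁ * (δ * (2 * M + 1) * N) = (n₁ * (δ * (2 * M + 1))) * N := by ring
          _ ≤ c / 2 * N := by gcongr
      linarith
    have hκb : ∀ k, ‖inner ℂ (κ k) Δ‖ ≤ (if k = none then 1 else 0) * ‖inner ℂ (γ (cl x₁ τ none)) Δ‖ +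
        1 / τ * (‖inner ℂ (γ (cl x₁ τ k)) Δ‖ + ‖inner ℂ (γ (cl x₁ τ none)) Δ‖) := by
      have h0 := norm_nonneg (inner ℂ (γ (cl x₁ τ none)) Δ : ℂ)
      rintro (_ | i)
      · rw [if_pos rfl, one_mul]
        show ‖inner ℂ (γ x₁) Δ‖ ≤ _
        have : 0 ≤ 1 / τ * (‖inner ℂ (γ (cl x₁ τ none)) Δ‖ + ‖inner ℂ (γ (cl x₁ τ none)) Δ‖) := by
          positivity
        rw [cl_none] at *
        linarith
      · rw [if_neg (by simp), zero_mul, zero_add]
        show ‖inner ℂ (((τ : ℂ)⁻¹) • (γ (cl x₁ τ (some i)) - γ x₁)) Δ‖ ≤ _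
        rw [inner_smul_left, norm_mul, inner_sub_left, RCLike.norm_conj, norm_inv,
          Complex.norm_real, Real.norm_of_nonneg hτ.le, one_div]
        exact mul_le_mul_of_nonneg_left (norm_sub_le _ _) (by positivity)
    set S : ℝ := ∑ i, ‖inner ℂ (γ (cl x₁ τ i)) Δ‖ with hS
    have hS0 : 0 ≤ S := Finset.sum_nonneg fun _ _ => norm_nonneg _
    have hSk : ∀ k, ‖inner ℂ (γ (cl x₁ τ k)) Δ‖ ≤ S := fun k =>
      Finset.single_le_sum (f := fun i => ‖inner ℂ (γ (cl x₁ τ i)) Δ‖)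
        (fun _ _ => norm_nonneg _) (Finset.mem_univ k)
    have hκS : ∑ k, ‖inner ℂ (κ k) Δ‖ ≤ (1 + n₁ * (2 / τ)) * S := by
      have h1 : ∀ k, ‖inner ℂ (κ k) Δ‖ ≤ (if k = none then 1 else 0) * S + 2 / τ * S := by
        intro k
        refine (hκb k).trans (add_le_add ?_ ?_)
        · refine mul_le_mul_of_nonneg_left (hSk none) ?_
          split_ifs <;> norm_num
        · have h2 := hSk k
          have h3 := hSk none
          calc 1 / τ * (‖inner ℂ (γ (cl x₁ τ k)) Δ‖ + ‖inner ℂ (γ (cl x₁ τ none)) Δ‖)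
              ≤ 1 / τ * (S + S) := by gcongr
            _ = 2 / τ * S := by ring
      refine (Finset.sum_le_sum fun k _ => h1 k).trans ?_
      rw [Finset.sum_add_distrib, Finset.sum_const, Finset.card_univ, Fintype.card_option,
        Fintype.card_fin, nsmul_eq_mul, ← Finset.sum_mul, Finset.sum_ite_eq' Finset.univ none,
        if_pos (Finset.mem_univ _)]
      push_cast
      rw [hn₁]
      linarith
    have h6 : c / 2 * N ≤ (1 + n₁ * (2 / τ)) * S := by linarith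
    calc N = 2 / c * (c / 2 * N) := by field_simp
      _ ≤ 2 / c * ((1 + n₁ * (2 / τ)) * S) := by gcongr
      _ = 2 / c * (1 + n₁ * (2 / τ)) * S := by ring

end Vale.Agent.P284.H451.G
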