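import Vale.Agent.P284.H478.G.S

/-!
# P284 (helper451), target G: the limit of the near identity elements

`RigStmt` (G2a + G2b + G2c): if the elements `g j` are near the identity on the sheets near all good
points (`NearId`), then either they preserve eventually all the lines `ℂ v y`, or, along an ultrafilter
`𝒰` and with a scale `ε j → 0`, the sheet maps satisfy `(φ j - id) / ε j → ζ ≠ 0`, and there is a
subgroup `K'` of finite index of `K` such that the sheet maps of `κ g_j κ⁻¹`, `κ ∈ K'`, have the same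
limit `ζ`.
-/

open scoped Manifold ContDiff Topology InnerProductSpace ComplexConjugate
open Filter Set Metric

noncomputable section

namespace Vale.Agent.P284.H451.G

open Vale.Agent.P272.K Vale.Agent.P284.H894 Vale.Agent.P284.H894.G Vale.Agent.P284.H894.V
  Vale.Agent.P284.H894.W Vale.Agent.P284.H573 Vale.Agent.P284.H213.Grp Vale.Agent.P284.H395
  Vale.Agent.P284.H619 Vale.Agent.P284.H625 Vale.Agent.P284.H378 Vale.Agent.P284.H478.G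

/-- **G2abc** -/
def RigStmt : Prop :=
  ∀ (n q r k s m : ℕ) (X : Type) [TopologicalSpace X] [T2Space X]
    [ChartedSpace (Cm n) X] [IsManifold 𝓘(ℂ, Cm n) ω X] (E Γ : Type)
    [TopologicalSpace E] [ConnectedSpace E] [Group Γ] [MulAction Γ E] (p : E → X), IsGalois Γ p →
    ∀ (F : E → Cm q) (c : Γ → Cm q) (K : Subgroup Γ),
      (∀ g y, F (g • y) = F y + c g) → K.Normal → (∀ g ∈ K, c g = 0) → FinRepIn Γ K →
    ∀ (W H : Type) [NormedAddCommGroup W] [InnerProductSpace ℂ W] [CompleteSpace W]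
      [NormedAddCommGroup H] [InnerProductSpace ℂ H] [CompleteSpace H]
      (π : Γ →* (W ≃ₗᵢ[ℂ] W)) (Θ : E → Chart n X → (Cm n →L[ℂ] W))
      (v : E → Chart n X → (Fin (q + r) → Cm n) → H) (U : Γ → (H →ₗᵢ[ℂ] H))
      (N : Cm k →L[ℂ] Cm q) (𝒢 : Set E), LeafE s p F m v U π Θ N 𝒢 →
    ∀ g : ℕ → Γ, NearId p F m v U π Θ c N s 𝒢 g →
    (∀ᶠ j in atTop, ∀ y ∈ 𝒢, ∀ e, At e (p y) → ∀ ξ, ∃ a : ℂ, U (g j) (v y e ξ) = a • v y e ξ) ∨
    ∃ (𝒰 : Ultrafilter ℕ) (ε : ℕ → ℝ) (K' : Subgroup Γ), (𝒰 : Filter ℕ) ≤ atTop ∧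
      (∀ᶠ j in (𝒰 : Filter ℕ), 0 < ε j) ∧ Tendsto ε 𝒰 (𝓝 0) ∧
      K' ≤ K ∧ K'.Normal ∧ (∃ A : Set Γ, A.Finite ∧ ∀ g ∈ K, ∃ f ∈ A, f⁻¹ * g ∈ K') ∧
      ∀ z ∈ 𝒢, ∀ (e : Chart n X) (b : Cm n → Cm (q + r)) (F0 : Cm (q + r) → W)
        (β : Cm (q + r) → Cm s) (γ : Cm s → H) (τ : Cm s → Cm q),
        LC p F m v U π Θ N z e b F0 β γ τ →
        ∃ ρ₀ > 0, ∃ ζ : Cm s → Cm s, DifferentiableOn ℂ ζ (ball (β (b (e (p z)))) ρ₀) ∧
          (∀ ρ > 0, ∃ x ∈ ball (β (b (e (p z)))) ρ, ζ x ≠ 0) ∧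
          ∀ κ ∈ K', ∃ ρ > 0, ρ ≤ ρ₀ ∧ ∃ (C : ℝ) (φ : ℕ → Cm s → Cm s),
            (∀ᶠ j in (𝒰 : Filter ℕ),
              NI U c N γ τ (β (b (e (p z)))) ρ (κ * g j * κ⁻¹) (φ j)) ∧
            (∀ᶠ j in (𝒰 : Filter ℕ), ∀ x ∈ ball (β (b (e (p z)))) ρ, ‖φ j x - x‖ ≤ C * ε j) ∧
            ∀ x ∈ ball (β (b (e (p z)))) ρ,
              Tendsto (fun j => (((ε j)⁻¹ : ℝ) : ℂ) • (φ j x - x)) 𝒰 (𝓝 (ζ x))

end Vale.Agent.P284.H451.G
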