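import Vale.Agent.P284.H451.G.Abs3
import Vale.Agent.P284.H451.G.S
import Vale.Agent.P284.H366.G.L4
import Vale.Agent.P284.H212.Thin
import Vale.Agent.P284.H212.Cont
import Vale.Agent.P284.H573.HNF

/-!
# P284 (helper451), target G: the lines of `v`, near identity elements
-/

open scoped Manifold ContDiff Topology InnerProductSpace ComplexConjugate
open Filter Set Metric

noncomputable section

set_option linter.unusedSectionVars false

namespace Vale.Agent.P284.H451.G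

open Vale.Agent.P272.K Vale.Agent.P284.H894 Vale.Agent.P284.H894.G Vale.Agent.P284.H894.V
  Vale.Agent.P284.H894.W Vale.Agent.P284.H573 Vale.Agent.P284.H213.Grp Vale.Agent.P284.H395
  Vale.Agent.P284.H619 Vale.Agent.P284.H625 Vale.Agent.P284.H378 Vale.Agent.P284.H478.G
  Vale.Agent.P284.H212

section
variable {n R : ℕ} {X E H : Type} [TopologicalSpace X] [ChartedSpace (Cm n) X]
  [NormedAddCommGroup H] [InnerProductSpace ℂ H]

/-- the line of `v` at `y` -/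
def Ln (p : E → X) (v : E → Chart n X → (Fin R → Cm n) → H) (y : E) : Submodule ℂ H :=
  Submodule.span ℂ {w | ∃ e ξ, At e (p y) ∧ w = v y e ξ}

theorem mem_Ln {p : E → X} {v : E → Chart n X → (Fin R → Cm n) → H} {y : E} {e : Chart n X}
    (he : At e (p y)) (ξ : Fin R → Cm n) : v y e ξ ∈ Ln p v y :=
  Submodule.subset_span ⟨e, ξ, he, rfl⟩

end

/-- the maps `T j` move the lines near `z` only a little, `F` moves by `c j` modulo `Rg` -/
def NrF {ι E H : Type*} {q : ℕ} [TopologicalSpace E] [NormedAddCommGroup H] [InnerProductSpace ℂ H]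
    (L : E → Submodule ℂ H) (F : E → Cm q) (Rg : Submodule ℂ (Cm q)) (T : ι → H → H) (c : ι → Cm q)
    (l : Filter ι) (z : E) : Prop :=
  ∀ O ∈ 𝓝 z, ∃ N ∈ 𝓝 z, ∀ᶠ j in l, ∀ y ∈ N, ∃ y'' ∈ O, (∀ w ∈ L y, T j w ∈ L y'') ∧
    F y'' - F y - c j ∈ Rg

section
variable {n q r k s m : ℕ} {X E Γ W H : Type} [TopologicalSpace X] [ChartedSpace (Cm n) X]
  [TopologicalSpace E] [Group Γ] [MulAction Γ E]
  [NormedAddCommGroup W] [InnerProductSpace ℂ W] [NormedAddCommGroup H] [InnerProductSpace ℂ H]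
  {p : E → X} {F : E → Cm q} {v : E → Chart n X → (Fin (q + r) → Cm n) → H}
  {U : Γ → (H →ₗᵢ[ℂ] H)} {π : Γ →* (W ≃ₗᵢ[ℂ] W)} {Θ : E → Chart n X → (Cm n →L[ℂ] W)}
  {N : Cm k →L[ℂ] Cm q} {z : E} {e : Chart n X} {b : Cm n → Cm (q + r)}
  {F0 : Cm (q + r) → W} {β : Cm (q + r) → Cm s} {γ : Cm s → H} {τ : Cm s → Cm q} {𝒢 : Set E}

/-- the facts near a good point -/
theorem lc_near [CompleteSpace W] [CompleteSpace H] (hp : IsCoveringMap p)
    (hv : HForm n (q + r) m p H v) (h : LC p F m v U π Θ N z e b F0 β γ τ) :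
    ∀ᶠ y in 𝓝 z, At e (p y) ∧
      map (fun y => β (b (e (p y)))) (𝓝 y) = 𝓝 (β (b (e (p y)))) ∧
      Ln p v y = Submodule.span ℂ {γ (β (b (e (p y))))} ∧
      F y - τ (β (b (e (p y)))) ∈ LinearMap.range (N : Cm k →ₗ[ℂ] Cm q) ∧
      ∃ ξ, v y e ξ = γ (β (b (e (p y)))) := by
  have hb1 : ∀ᶠ w in 𝓝 (e (p z)), AnalyticAt ℂ b w ∧ Function.Surjective (fderiv ℂ b w) :=
    h.ban.eventually_analyticAt.and
      (h.ban.fderiv.continuousAt.eventually_mem (surj_isOpen.mem_nhds h.bsurj))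
  have hβ1 : ∀ᶠ x in 𝓝 (b (e (p z))), AnalyticAt ℂ β x ∧ Function.Surjective (fderiv ℂ β x) :=
    h.βan.eventually_analyticAt.and
      (h.βan.fderiv.continuousAt.eventually_mem (surj_isOpen.mem_nhds h.βsurj))
  have hβ2 := h.ban.continuousAt.tendsto.eventually hβ1
  have hle := h.ban.continuousAt.tendsto.eventually h.leaf
  filter_upwards [at_ev hp h.mem, (ev_iff hp h.mem).2 hb1, (ev_iff hp h.mem).2 hβ2, h.v_eq,
    (ev_iff hp h.mem).2 hle, h.t_eq] with y h1 h2 h3 h4 h5 h6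
  have hξ : ∃ ξ : Fin (q + r) → Cm n, v y e ξ = γ (β (b (e (p y)))) := by
    choose ξ hξ using fun l : Fin (q + r) => h2.2 (Pi.single l 1)
    refine ⟨ξ, ?_⟩
    have e2 : (Matrix.of fun i j => fderiv ℂ b (e (p y)) (ξ j) i) = 1 := by
      ext i' j'
      rw [Matrix.of_apply, hξ, Matrix.one_apply, Pi.single_apply]
    rw [h4 ξ, e2, Matrix.det_one, one_pow, one_smul]
  refine ⟨h1, ?_, ?_, ?_, hξ⟩
  · have k1 : HasStrictFDerivAt (fun x => β (b x)) (fderiv ℂ β (b (e (p y))) ∘L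
        fderiv ℂ b (e (p y))) (e (p y)) :=
      h3.1.hasStrictFDerivAt.comp _ h2.1.hasStrictFDerivAt
    have k2 : Function.Surjective (fderiv ℂ β (b (e (p y))) ∘L fderiv ℂ b (e (p y))) :=
      h3.2.comp h2.2
    have k3 := k1.map_nhds_eq_of_surj (LinearMap.range_eq_top.2 k2)
    rw [← k3, ← map_ep hp h1, map_map]
    rfl
  · apply le_antisymm
    · rw [Ln, Submodule.span_le]
      rintro w ⟨e', ξ, he', rfl⟩
      rw [hv.change y e' e he' h1, h4]
      exact Submodule.smul_mem _ _ (Submodule.mem_span_singleton_self _)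
    · rw [Submodule.span_le, singleton_subset_iff]
      obtain ⟨ξ, hξ⟩ := hξ
      rw [← hξ]
      exact mem_Ln h1 ξ
  · rw [h6]
    exact h5

theorem lc_pch [CompleteSpace W] [CompleteSpace H] (hp : IsCoveringMap p)
    (hv : HForm n (q + r) m p H v) (h : LC p F m v U π Θ N z e b F0 β γ τ) :
    PCh (Ln p v) z (fun y => β (b (e (p y)))) γ := by
  have h1 := lc_near hp hv h
  exact ⟨h1.mono fun y hy => hy.2.1, h.γan, h.imm, h1.mono fun y hy => hy.2.2.1⟩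

/-- near identity elements in topological form -/
theorem nrF_of [CompleteSpace W] [CompleteSpace H] (hp : IsCoveringMap p)
    (hv : HForm n (q + r) m p H v) {c : Γ → Cm q} {g : ℕ → Γ}
    (hg : NearId p F m v U π Θ c N s 𝒢 g) (hz : z ∈ 𝒢)
    (h : LC p F m v U π Θ N z e b F0 β γ τ) :
    NrF (Ln p v) F (LinearMap.range (N : Cm k →ₗ[ℂ] Cm q)) (fun j => U (g j)) (fun j => c (g j))
      atTop z := by
  intro O hO
  obtain ⟨ρ, hρ, hev⟩ := hg z hz e b F0 β γ τ h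
  set B : E → Cm s := fun y => β (b (e (p y))) with hB
  have hnear := lc_near hp hv h
  have hmap : map B (𝓝 z) = 𝓝 (B z) := hnear.self_of_nhds.2.1
  have h1 : B '' (O ∩ {y | Ln p v y = Submodule.span ℂ {γ (B y)} ∧
      F y - τ (B y) ∈ LinearMap.range (N : Cm k →ₗ[ℂ] Cm q)}) ∈ 𝓝 (B z) := by
    rw [← hmap]
    exact image_mem_map (inter_mem hO (hnear.mono fun y hy => ⟨hy.2.2.1, hy.2.2.2.1⟩))
  obtain ⟨δ, hδ, hball⟩ := Metric.mem_nhds_iff.1 h1
  set δ' : ℝ := min (δ / 2) ρ with hδ'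
  have hδ'0 : 0 < δ' := lt_min (by positivity) hρ
  have hcont : B ⁻¹' ball (B z) δ' ∈ 𝓝 z := by
    have h3 : ball (B z) δ' ∈ map B (𝓝 z) := by rw [hmap]; exact ball_mem_nhds _ hδ'0
    exact h3
  refine ⟨{y | Ln p v y = Submodule.span ℂ {γ (B y)} ∧
      F y - τ (B y) ∈ LinearMap.range (N : Cm k →ₗ[ℂ] Cm q)} ∩ B ⁻¹' ball (B z) δ',
    inter_mem (hnear.mono fun y hy => ⟨hy.2.2.1, hy.2.2.2.1⟩) hcont, ?_⟩
  filter_upwards [hev (δ / 2) (by positivity)] with j ⟨φ, hφ, hφd⟩ y ⟨⟨hy1, hy2⟩, hy3⟩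
  have hyρ : B y ∈ ball (B z) ρ := ball_subset_ball (min_le_right _ _) hy3
  have hφB : φ (B y) ∈ ball (B z) δ := by
    rw [mem_ball]
    have k1 := hφd (B y) hyρ
    have k2 : dist (B y) (B z) < δ / 2 := lt_of_lt_of_le (mem_ball.1 hy3) (min_le_left _ _)
    have k3 := dist_triangle (φ (B y)) (B y) (B z)
    rw [← dist_eq_norm] at k1
    linarith
  obtain ⟨y'', ⟨hy''O, hy''1, hy''2⟩, hy''3⟩ := hball hφB
  obtain ⟨⟨a, ha⟩, hτ⟩ := hφ.2 (B y) hyρ
  refine ⟨y'', hy''O, fun w hw => ?_, ?_⟩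
  · rw [hy1] at hw
    obtain ⟨c', rfl⟩ := Submodule.mem_span_singleton.1 hw
    rw [hy''1, map_smul, ha, hy''3, smul_smul]
    exact Submodule.smul_mem _ _ (Submodule.mem_span_singleton_self _)
  · rw [hy''3] at hy''2
    have k1 : F y'' - F y - c (g j) = (F y'' - τ (φ (B y))) - (F y - τ (B y)) +
        (τ (φ (B y)) - τ (B y) - c (g j)) := by abel
    rw [k1]
    exact Submodule.add_mem _ (Submodule.sub_mem _ hy''2 hy2) hτ

/-- conjugation -/
theorem nrF_conj (hG : IsGalois Γ p)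
    (heq : ∀ (g : Γ) y e, At e (p y) → ∀ ξ, v (g • y) e ξ = U g (v y e ξ)) {c : Γ → Cm q}
    (hF : ∀ g y, F (g • y) = F y + c g) {g : ℕ → Γ} {κ : Γ} (hκ : c κ = 0)
    {l : Filter ℕ} {Rg : Submodule ℂ (Cm q)}
    (h : NrF (Ln p v) F Rg (fun j => U (g j)) (fun j => c (g j)) l (κ⁻¹ • z)) :
    NrF (Ln p v) F Rg (fun j => U (κ * g j * κ⁻¹)) (fun j => c (κ * g j * κ⁻¹)) l z := by
  have hps := fun (g : Γ) (y : E) => H366.GB.p_smul hG g y
  -- the lines are equivariant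
  have hL : ∀ (g : Γ) y, ∀ w ∈ Ln p v y, U g w ∈ Ln p v (g • y) := by
    intro g y w hw
    refine Submodule.span_induction (p := fun w _ => U g w ∈ Ln p v (g • y)) ?_ ?_ ?_ ?_ hw
    · rintro _ ⟨e, ξ, he, rfl⟩
      rw [← heq g y e he]
      exact mem_Ln (by rw [hps]; exact he) ξ
    · rw [map_zero]; exact Submodule.zero_mem _
    · intro x y _ _ hx hy
      rw [map_add]; exact Submodule.add_mem _ hx hy
    · intro a x _ hx
      rw [map_smul]; exact Submodule.smul_mem _ _ hx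
  -- multiplicativity on the lines
  have hmul : ∀ (g g' : Γ) y, ∀ w ∈ Ln p v y, U (g * g') w = U g (U g' w) := by
    intro g g' y w hw
    refine Submodule.span_induction (p := fun w _ => U (g * g') w = U g (U g' w)) ?_ ?_ ?_ ?_ hw
    · rintro _ ⟨e, ξ, he, rfl⟩
      rw [← heq (g * g') y e he, mul_smul, heq g (g' • y) e (by rw [hps]; exact he),
        heq g' y e he]
    · simp
    · intro x y _ _ hx hy
      rw [map_add, hx, hy, map_add, map_add]
    · intro a x _ hx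
      rw [map_smul, hx, map_smul, map_smul]
  intro O hO
  have ht : Tendsto (fun y : E => κ • y) (𝓝 (κ⁻¹ • z)) (𝓝 z) := by
    have := (hG.cont κ).tendsto (κ⁻¹ • z)
    rwa [smul_inv_smul] at this
  have ht' : Tendsto (fun y : E => κ⁻¹ • y) (𝓝 z) (𝓝 (κ⁻¹ • z)) := (hG.cont κ⁻¹).tendsto z
  obtain ⟨N₁, hN₁, hev⟩ := h _ (ht hO)
  refine ⟨_, ht' hN₁, ?_⟩
  filter_upwards [hev] with j hj y hy
  obtain ⟨y'', hy'', h1, h2⟩ := hj _ hy
  refine ⟨κ • y'', hy'', fun w hw => ?_, ?_⟩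
  · have k1 : U (κ * g j * κ⁻¹) w = U κ (U (g j) (U κ⁻¹ w)) := by
      rw [hmul (κ * g j) κ⁻¹ y w hw, hmul κ (g j) (κ⁻¹ • y) _ (hL κ⁻¹ y w hw)]
    show U (κ * g j * κ⁻¹) w ∈ _
    rw [k1]
    exact hL κ _ _ (h1 _ (hL κ⁻¹ y w hw))
  · have hadd : ∀ g g' : Γ, c (g * g') = c g + c g' := by
      intro g g'
      have k1 := hF (g * g') y
      rw [mul_smul, hF, hF] at k1
      have k2 : F y + (c g' + c g) = F y + c (g * g') := by rw [← k1]; abel
      rw [← add_left_cancel k2]; abel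
    have hc1 : c κ⁻¹ = 0 := by
      have k1 := hadd κ κ⁻¹
      have k2 := hadd 1 1
      rw [mul_one] at k2
      have k3 : c 1 = 0 := by simpa using k2
      rw [mul_inv_cancel, k3, hκ, zero_add] at k1
      exact k1.symm
    have k1 : F (κ⁻¹ • y) = F y := by rw [hF, hc1, add_zero]
    have k2 : F (κ • y'') = F y'' := by rw [hF, hκ, add_zero]
    rw [k2]
    show F y'' - F y - c (κ * g j * κ⁻¹) ∈ Rg
    rw [hadd, hadd, hκ, hc1, zero_add, add_zero]
    rw [k1] at h2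
    exact h2

/-- sheet maps from the topological form -/
theorem ni_of [CompleteSpace W] [CompleteSpace H] (hp : IsCoveringMap p)
    (hv : HForm n (q + r) m p H v) (h : LC p F m v U π Θ N z e b F0 β γ τ) {c : Γ → Cm q}
    {g : ℕ → Γ} {l : Filter ℕ}
    (hn : NrF (Ln p v) F (LinearMap.range (N : Cm k →ₗ[ℂ] Cm q)) (fun j => U (g j))
      (fun j => c (g j)) l z) {r₀ : ℝ} (hr₀ : 0 < r₀) {O : Set E} (hO : O ∈ 𝓝 z) :
    ∃ ρ > 0, ball (β (b (e (p z)))) ρ ⊆ (fun y => β (b (e (p y)))) '' O ∧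
      ∃ φ : ℕ → Cm s → Cm s, ∀ᶠ j in l, NI U c N γ τ (β (b (e (p z)))) ρ (g j) (φ j) ∧
        ∀ x ∈ ball (β (b (e (p z)))) ρ, φ j x ∈ ball (β (b (e (p z)))) r₀ := by
  set B : E → Cm s := fun y => β (b (e (p y))) with hB
  have hnear := lc_near hp hv h
  have hmap : map B (𝓝 z) = 𝓝 (B z) := hnear.self_of_nhds.2.1
  obtain ⟨C, -⟩ := exists_pc h.γan h.imm one_pos
  have hr1 : 0 < min r₀ C.r₁ := lt_min hr₀ C.r₁_pos
  have hgood : {y | Ln p v y = Submodule.span ℂ {γ (B y)} ∧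
      F y - τ (B y) ∈ LinearMap.range (N : Cm k →ₗ[ℂ] Cm q)} ∈ 𝓝 z :=
    hnear.mono fun y hy => ⟨hy.2.2.1, hy.2.2.2.1⟩
  have hpre : B ⁻¹' ball (B z) (min r₀ C.r₁) ∈ 𝓝 z := by
    have h3 : ball (B z) (min r₀ C.r₁) ∈ map B (𝓝 z) := by rw [hmap]; exact ball_mem_nhds _ hr1
    exact h3
  obtain ⟨N₁, hN₁, hev⟩ := hn _ (inter_mem hgood hpre)
  have h1 : B '' ((N₁ ∩ O) ∩ ({y | Ln p v y = Submodule.span ℂ {γ (B y)} ∧
      F y - τ (B y) ∈ LinearMap.range (N : Cm k →ₗ[ℂ] Cm q)} ∩ B ⁻¹' ball (B z) (min r₀ C.r₁))) ∈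
      𝓝 (B z) := by
    rw [← hmap]
    exact image_mem_map (inter_mem (inter_mem hN₁ hO) (inter_mem hgood hpre))
  obtain ⟨ρ, hρ, hball⟩ := Metric.mem_nhds_iff.1 h1
  refine ⟨ρ, hρ, fun x hx => ?_, fun j x => C.g (C.P (U (g j) (γ x))), ?_⟩
  · obtain ⟨y, hy, rfl⟩ := hball hx
    exact ⟨y, hy.1.2, rfl⟩
  filter_upwards [hev] with j hj
  have key : ∀ x ∈ ball (B z) ρ, x ∈ ball (B z) (min r₀ C.r₁) ∧ C.Dom (U (g j) (γ x)) ∧
      C.g (C.P (U (g j) (γ x))) ∈ ball (B z) (min r₀ C.r₁) ∧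
      (∃ a : ℂ, U (g j) (γ x) = a • γ (C.g (C.P (U (g j) (γ x))))) ∧
      τ (C.g (C.P (U (g j) (γ x)))) - τ x - c (g j) ∈
        LinearMap.range (N : Cm k →ₗ[ℂ] Cm q) := by
    intro x hx
    obtain ⟨y, ⟨⟨hyN, -⟩, ⟨hy1, hy2⟩, hy3⟩, rfl⟩ := hball hx
    obtain ⟨y'', ⟨⟨hy''1, hy''2⟩, hy''3⟩, h2, h3⟩ := hj y hyN
    have h4 : γ (B y) ∈ Ln p v y := by rw [hy1]; exact Submodule.mem_span_singleton_self _
    have h5 := h2 _ h4
    rw [hy''1] at h5
    obtain ⟨a, ha⟩ := Submodule.mem_span_singleton.1 h5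
    have hγ0 : γ (B y) ≠ 0 := by
      have k1 : C.l₀ (γ (B y)) ≠ 0 := C.l₀_ne _ (ball_subset_ball (min_le_right _ _) hy3)
      intro k2
      rw [k2, map_zero] at k1
      exact k1 rfl
    have ha0 : a ≠ 0 := by
      rintro rfl
      rw [zero_smul] at ha
      exact hγ0 ((map_eq_zero_iff _ (U (g j)).injective).1 ha.symm)
    obtain ⟨h6, h7, -⟩ := C.g_of (ball_subset_ball (min_le_right _ _) hy''3) ha0 ha.symm
    refine ⟨hy3, h6, ?_, ⟨a, ?_⟩, ?_⟩
    · rw [h7]; exact hy''3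
    · rw [h7]; exact ha.symm
    · rw [h7]
      have k1 : τ (B y'') - τ (B y) - c (g j) = (F y'' - F y - c (g j)) - (F y'' - τ (B y'')) +
          (F y - τ (B y)) := by abel
      rw [k1]
      exact Submodule.add_mem _ (Submodule.sub_mem _ h3 hy''2) hy2
  refine ⟨⟨fun x hx => ?_, fun x hx => ⟨(key x hx).2.2.2.1, (key x hx).2.2.2.2⟩⟩, fun x hx =>
    ball_subset_ball (min_le_left _ _) (key x hx).2.2.1⟩
  obtain ⟨k1, k2, -⟩ := key x hx
  have k3 : AnalyticAt ℂ γ x := C.γan _ (ball_subset_ball ((min_le_right _ _).trans C.r₁_le) k1)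
  have k4 : AnalyticAt ℂ (fun x => U (g j) (γ x)) x :=
    ((U (g j)).toContinuousLinearMap.analyticAt _).comp k3
  have k5 : AnalyticAt ℂ (fun x => C.g (C.P (U (g j) (γ x)))) x :=
    AnalyticAt.comp (g := fun w => C.g (C.P w)) (f := fun x => U (g j) (γ x)) (C.gP_an k2) k4
  exact k5.differentiableAt.differentiableWithinAt

end

end Vale.Agent.P284.H451.G
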