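import Vale.Agent.P284.H451.G.Alt1
import Vale.Agent.P284.H451.G.Rig
import Vale.Agent.P284.H573.G.Fin

/-!
# P284 (helper451), target G: the global form of `DKGStmt`

The elements of the kernel of the periods which are near the identity on the sheets near all good points
act eventually trivially on `Θ` at all regular points of `E` (all fibres at once). The second alternative
of `RigStmt` is excluded as in helper573's `dkG`.
-/

open scoped Manifold ContDiff Topology InnerProductSpace ComplexConjugate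
open Filter Set Metric

noncomputable section

set_option linter.unusedSectionVars false
set_option linter.style.haveILetI false

namespace Vale.Agent.P284.H451.G

open Vale.Agent.P272.K Vale.Agent.P284.H894.G Vale.Agent.P284.H894.V Vale.Agent.P284.H894.W
  Vale.Agent.P284.H213.Grp Vale.Agent.P284.H619 Vale.Agent.P284.H10 Vale.Agent.P284.H573
  Vale.Agent.P284.H625 Vale.Agent.P284.H378 Vale.Agent.P284.H212 Vale.Agent.P284.H395
  Vale.Agent.P284.H478.G Vale.Agent.P284.H885.Ker Vale.Agent.P284.H885.DK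
  Vale.Agent.P284.H573.GG

/-- **G2, global form.** -/
def DKGStmt' : Prop :=
  ∀ (n q r k s m : ℕ) (X : Type) [TopologicalSpace X] [T2Space X] [CompactSpace X]
    [ConnectedSpace X] [ChartedSpace (Cm n) X] [IsManifold 𝓘(ℂ, Cm n) ω X]
    (w : Chart n X → Cm n → Matrix (Fin n) (Fin n) ℂ), IsKahler w → ∀ (E Γ : Type)
    [TopologicalSpace E] [ConnectedSpace E] [Group Γ] [MulAction Γ E] (p : E → X), IsGalois Γ p →
    ∀ (F : E → Cm q) (c : Γ → Cm q) (K : Subgroup Γ), (∃ B, HolB p w F B) →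
      (∀ g y, F (g • y) = F y + c g) → KPkg Γ q c K → FinRepIn Γ K → GenConn (n := n) p F →
      (∃ y, Reg (n := n) p F y) →
    ∀ (W H : Type) [NormedAddCommGroup W] [InnerProductSpace ℂ W] [CompleteSpace W]
      [NormedAddCommGroup H] [InnerProductSpace ℂ H] [CompleteSpace H]
      (π : Γ →* (W ≃ₗᵢ[ℂ] W)) (Θ : E → Chart n X → (Cm n →L[ℂ] W)) (M₀ : Set (Cm q)),
      IsMeagre M₀ → ThE p F K π Θ M₀ →
    ∀ (v : E → Chart n X → (Fin (q + r) → Cm n) → H) (U : Γ → (H →ₗᵢ[ℂ] H))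
      (N : Cm k →L[ℂ] Cm q) (𝒢 : Set E), LeafE s p F m v U π Θ N 𝒢 →
    ∀ g : ℕ → Γ, (∀ j, c (g j) = 0) → NearId p F m v U π Θ c N s 𝒢 g →
    ∀ᶠ j in atTop, ∀ y e, Reg (n := n) p F y → At e (p y) → ∀ ξ ∈ VS p F y e,
      π (g j) (Θ y e ξ) = Θ y e ξ

section
variable {n q r k s m : ℕ} {X E Γ W H : Type} [TopologicalSpace X] [ChartedSpace (Cm n) X]
  [TopologicalSpace E] [Group Γ] [MulAction Γ E]
  [NormedAddCommGroup W] [InnerProductSpace ℂ W] [NormedAddCommGroup H] [InnerProductSpace ℂ H]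
  {p : E → X} {F : E → Cm q} {v : E → Chart n X → (Fin (q + r) → Cm n) → H}
  {U : Γ → (H →ₗᵢ[ℂ] H)} {π : Γ →* (W ≃ₗᵢ[ℂ] W)} {Θ : E → Chart n X → (Cm n →L[ℂ] W)}
  {N : Cm k →L[ℂ] Cm q} {𝒢 : Set E}

/-- elements preserving the lines of `v` act trivially on `Θ` at all regular points -/
theorem fix_reg [CompleteSpace W] [CompleteSpace H] [IsManifold 𝓘(ℂ, Cm n) ω X]
    (hp : IsCoveringMap p) (hF : HolE n p F) {K : Subgroup Γ} {M₀ : Set (Cm q)}
    (hΘ : ThE p F K π Θ M₀) (hL : LeafE s p F m v U π Θ N 𝒢) {g : Γ}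
    (hg : ∀ y ∈ 𝒢, ∀ e, At e (p y) → ∀ ξ, ∃ a : ℂ, U g (v y e ξ) = a • v y e ξ) :
    ∀ y e, Reg (n := n) p F y → At e (p y) → ∀ ξ ∈ VS p F y e, π g (Θ y e ξ) = Θ y e ξ := by
  -- the good points
  have hgood : ∀ y ∈ 𝒢, Reg (n := n) p F y → ∀ e, At e (p y) → ∀ ξ ∈ VS p F y e,
      π g (Θ y e ξ) = Θ y e ξ := by
    intro y hy hyr e he ξ hξ
    obtain ⟨e₁, b, F0, β, γ, τ, hLC⟩ := hL.chart y hy
    have h1 := fix_good hp hL.form (hL.good.isOpen.mem_nhds hy) hLC hg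
    have h2 := hΘ.change y e e₁ hyr he hLC.mem ξ hξ
    rw [h2]
    refine h1 _ ?_
    rw [H366.mem_VS_iff hp hF hLC.mem]
    have h3 := (H366.mem_VS_iff hp hF he).1 hξ
    rw [H366.dFe_change hp hF he hLC.mem] at h3
    exact h3
  intro y e hyr he ξ hξ
  obtain ⟨A, hA, hAe⟩ := hΘ.hol y e hyr he
  obtain ⟨f, hf, hfan⟩ := hF y e he
  obtain ⟨P, hP, hPe⟩ := vert_proj hfan (hyr e f he hf)
  have hcont : ContinuousAt (fun y' => e (p y')) y := by
    have := map_ep hp he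
    rw [ContinuousAt, Tendsto, this]
  have hregy : ∀ᶠ y' in 𝓝 y, Reg (n := n) p F y' := by
    have h1 : ∀ᶠ z in 𝓝 (e (p y)), Function.Surjective (fderiv ℂ f z) :=
      hfan.fderiv.continuousAt.eventually_mem (surj_isOpen.mem_nhds (hyr e f he hf))
    filter_upwards [(ev_iff hp he).2 h1, hf.eventually_nhds, at_ev hp he] with y' a1 a2 a3
    have a4 : Function.Surjective (H366.dFe p F y' e) := by
      rw [H366.dFe_eq hp a3 a2]
      exact a1
    intro e' f' he' hf'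
    have a5 := H366.dFe_change hp hF a3 he'
    rw [a5] at a4
    rw [← H366.dFe_eq hp he' hf']
    exact Function.Surjective.of_comp a4
  have hΦ : ContinuousAt (fun y' => π g (A (e (p y')) (P (e (p y')) ξ)) -
      A (e (p y')) (P (e (p y')) ξ)) y := by
    have h1 : ContinuousAt (fun z => A z (P z ξ)) (e (p y)) :=
      hA.continuousAt.clm_apply (hP.continuousAt.clm_apply continuousAt_const)
    have h2 : ContinuousAt (fun y' => A (e (p y')) (P (e (p y')) ξ)) y :=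
      ContinuousAt.comp (f := fun y' => e (p y')) (g := fun z => A z (P z ξ)) h1 hcont
    exact ((π g).continuous.continuousAt.comp h2).sub h2
  have h0 : π g (A (e (p y)) (P (e (p y)) ξ)) - A (e (p y)) (P (e (p y)) ξ) = 0 := by
    by_contra hne
    have h1 := hΦ.eventually_ne hne
    have h2 := (ev_iff hp he).2 hPe
    have h3 := hf.eventually_nhds
    have hfr : ∃ᶠ y' in 𝓝 y, y' ∈ 𝒢 := mem_closure_iff_frequently.1 (thin_dense hp hL.good y)
    obtain ⟨y', hy', k1, k2, k3, k4, k5, k6⟩ := (hfr.and_eventually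
      (h1.and (h2.and (h3.and (hregy.and (hAe.and (at_ev hp he))))))).exists
    apply k1
    have hV : P (e (p y')) ξ ∈ VS p F y' e := (mem_VS hp k6 k3).2 (k2.1 ξ)
    rw [← k5 _ hV, hgood y' hy' k4 e k6 _ hV, sub_self]
  have h1 : P (e (p y)) ξ = ξ := hPe.self_of_nhds.2 ξ ((mem_VS hp he hf).1 hξ)
  rw [h1, ← hAe.self_of_nhds ξ hξ] at h0
  exact sub_eq_zero.1 h0

end

/-- **G2, global form**, from `RigStmt` -/
theorem dkG'_of (hRig : RigStmt) : DKGStmt' := by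
  intro n q r k s m X _ _ _ _ _ _ w hw E Γ _ _ _ _ p hp F c K hF hFe hK hfr hG hreg W H _ _ _ _
    _ _ π Θ M₀ hM₀ hTh v U N 𝒢 hL g hcg hNear
  obtain ⟨B, hB⟩ := hF
  obtain ⟨T, hT1, hT2, hT3⟩ := hG
  have hTm : IsMeagre T := IsNowhereDense.isMeagre (by
    rw [IsNowhereDense, hT1.closure_eq, hT2])
  obtain ⟨Mg, hMg, hgf⟩ := H221.gfStmt n q X E Γ p hp w F c ⟨B, hB⟩ hFe hK.lat.disc 𝒢 hL.good hL.inv
  have hbad : IsMeagre (T ∪ M₀ ∪ Mg) := (hTm.union hM₀).union hMg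
  have hK0 : ∀ k ∈ K, ∀ y, F (k • y) = F y := fun k hk y => by
    rw [hFe, hK.sub k hk, add_zero]
  haveI : T2Space E := H35.S4.t2_of_cov hp.cov
  -- the data on a generic fibre
  have hgen : ∀ t ∉ T ∪ M₀ ∪ Mg, (∃ y, F y = t) → IsConnected (F ⁻¹' {t}) ∧
      (∀ y, F y = t → Reg (n := n) p F y) ∧ (∃ d, n = q + d) ∧
      (∃ u, VPot p F t W Θ u ∧ VEqui p F t K π Θ u) ∧
      ∀ (y : E) (e : Chart n X), F y = t → At e (p y) → ∃ h : Cm n → ℂ,
        AnalyticAt ℂ h (e (p y)) ∧ (∃ᶠ y' in 𝓝 y, F y' = t ∧ h (e (p y')) ≠ 0) ∧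
        ∀ᶠ y' in 𝓝 y, h (e (p y')) ≠ 0 → y' ∈ 𝒢 := by
    rintro t ht ⟨y₀, hy₀⟩
    have htT : t ∉ T := fun h' => ht (Or.inl (Or.inl h'))
    have htM : t ∉ M₀ := fun h' => ht (Or.inl (Or.inr h'))
    have htg : t ∉ Mg := fun h' => ht (Or.inr h')
    obtain ⟨hconn, hregt⟩ := hT3 t htT
    refine ⟨hconn, hregt, ?_, hTh.pot t htM, hgf t htg hregt⟩
    have he : At (chartAt (Cm n) (p y₀)) (p y₀) := ⟨chart_mem_atlas _ _, mem_chart_source _ _⟩
    obtain ⟨f, h1, h2⟩ := H221.holB_an hB y₀ he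
    exact Nat.exists_eq_add_of_le (N_le_n (hregt y₀ hy₀ _ f he h2))
  rcases hRig n q r k s m X E Γ p hp F c K hFe hK.normal hK.sub hfr W H π Θ v U N 𝒢 hL g hNear with
    hA | ⟨𝒰, ε, K', h𝒰, hε0, hεt, hK'K, -, hAf, hR⟩
  · -- the lines are preserved
    filter_upwards [hA] with j hj
    exact fix_reg hp.cov (holE_of hB) hTh hL hj
  · -- the second alternative is impossible
    exfalso
    have hfi : (K'.subgroupOf K).FiniteIndex := fi_of_fin hAf
    have hfund : ∀ t : Cm q, ∃ C : Set E, IsCompact C ∧ ∀ y, F y = t → ∃ k ∈ K', k • y ∈ C := by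
      intro t
      obtain ⟨C, h1, h2⟩ := H221.exists_fund_K hp ((holE_of hB).continuous hp.cov) hFe
        hK.lat.disc K' (fi_sub hfi hK.fi) ‖t‖
      exact ⟨C, h1, fun y hy => h2 y (by rw [hy])⟩
    have hrig' : ∀ z ∈ 𝒢, ∀ (e : Chart n X) (b : Cm n → Cm (q + r)) (F0 : Cm (q + r) → W)
        (β : Cm (q + r) → Cm s) (γ : Cm s → H) (τ : Cm s → Cm q),
        LC p F m v U π Θ N z e b F0 β γ τ →
        ∃ ρ₀ > 0, ∃ ζ : Cm s → Cm s, Cl U c N γ τ 𝒰 ε K' g (β (b (e (p z)))) ρ₀ ζ := by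
      intro z hz e b F0 β γ τ hLC
      obtain ⟨ρ₀, hρ₀, ζ, -, -, h3⟩ := hR z hz e b F0 β γ τ hLC
      exact ⟨ρ₀, hρ₀, ζ, h3⟩
    have hzero : ∀ z ∈ 𝒢, F z ∉ T ∪ M₀ ∪ Mg → ∀ (e : Chart n X) (b : Cm n → Cm (q + r))
        (F0 : Cm (q + r) → W) (β : Cm (q + r) → Cm s) (γ : Cm s → H) (τ : Cm s → Cm q),
        LC p F m v U π Θ N z e b F0 β γ τ → ∀ ρ₀ > 0, ∀ ζ : Cm s → Cm s,
        Cl U c N γ τ 𝒰 ε K' g (β (b (e (p z)))) ρ₀ ζ → ζ (β (b (e (p z)))) = 0 := by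
      intro z hz hFz e b F0 β γ τ hLC ρ₀ hρ₀ ζ hcl
      obtain ⟨hconn, hregt, ⟨d, hd⟩, ⟨u, hpot, hequi⟩, hth⟩ := hgen (F z) hFz ⟨z, rfl⟩
      exact zeta_zero hp hB hK0 hK.fg hK.nvi hK'K hfi hconn hregt hd (hfund _) hpot hequi hth hL
        hK.lat.add hK.sub hcg hε0 hεt hrig' z hz rfl e b F0 β γ τ hLC ρ₀ hρ₀ ζ hcl
    -- a good point
    haveI : Nonempty E := ⟨hreg.choose⟩
    obtain ⟨z₁, hz₁⟩ := hL.good.nonempty hp.cov
    obtain ⟨e, b, F0, β, γ, τ, hLC⟩ := hL.chart z₁ hz₁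
    obtain ⟨ρ₀, hρ₀, ζ, hζd, hζne, hcl⟩ := hR z₁ hz₁ e b F0 β γ τ hLC
    set b₀ : Cm s := β (b (e (p z₁))) with hb₀
    obtain ⟨CP, -⟩ := exists_pc hLC.γan hLC.imm one_pos
    obtain ⟨ρ, hρ, hρρ, C, φ, hNI, hbd, hlim⟩ := hcl 1 K'.one_mem
    have hon := lc_onL hp.cov hL.form hLC
    have hβc : ContinuousAt (fun y => β (b (e (p y)))) z₁ := hon.self_of_nhds.1
    -- `ζ` vanishes at the generic points
    have hζ0 : ∀ᶠ z in 𝓝 z₁, F z ∉ T ∪ M₀ ∪ Mg → ζ (β (b (e (p z)))) = 0 := by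
      have hb1 : ∀ᶠ z in 𝓝 z₁, β (b (e (p z))) ∈ ball b₀ (min ρ CP.r₁) :=
        hβc.eventually (ball_mem_nhds _ (lt_min hρ CP.r₁_pos))
      filter_upwards [GG.lc_near hp.cov hLC, hL.good.isOpen.mem_nhds hz₁, hb1] with z h1 h2 h3 hFz
      obtain ⟨ρ₀', hρ₀', ζ', -, -, hcl'⟩ := hR z h2 e b F0 β γ τ h1
      have h4 := hzero z h2 hFz e b F0 β γ τ h1 ρ₀' hρ₀' ζ' hcl'
      obtain ⟨ρ', hρ', -, C', φ', hNI', -, hlim'⟩ := hcl' 1 K'.one_mem
      set x' := β (b (e (p z))) with hx'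
      have hxρ : x' ∈ ball b₀ ρ := ball_subset_ball (min_le_left _ _) h3
      have hxC : x' ∈ ball b₀ CP.r₁ := ball_subset_ball (min_le_right _ _) h3
      have l1 := hlim x' hxρ
      have l2 := hlim' x' (mem_ball_self hρ')
      have m1 : Tendsto (fun j => φ j x') 𝒰 (𝓝 x') := by
        have := (lim_zero' hε0 hεt l1).add_const x'
        rw [zero_add] at this
        exact this.congr fun j => by rw [sub_add_cancel]
      have m2 : Tendsto (fun j => φ' j x') 𝒰 (𝓝 x') := by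
        have := (lim_zero' hε0 hεt l2).add_const x'
        rw [zero_add] at this
        exact this.congr fun j => by rw [sub_add_cancel]
      have h5 : ζ x' = ζ' x' := by
        refine tendsto_nhds_unique l1 (l2.congr' ?_)
        filter_upwards [hNI, hNI', m1.eventually (isOpen_ball.mem_nhds hxC),
          m2.eventually (isOpen_ball.mem_nhds hxC)] with j n1 n2 n3 n4
        obtain ⟨a, ha⟩ := (n1.2 x' hxρ).1
        obtain ⟨a', ha'⟩ := (n2.2 x' (mem_ball_self hρ')).1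
        have hγ0 : γ x' ≠ 0 := (CP.immAt hxC).1
        have ha0 : a ≠ 0 := by
          rintro rfl
          rw [zero_smul] at ha
          exact hγ0 ((U (1 * g j * 1⁻¹)).injective (by rw [ha, map_zero]))
        have ha0' : a' ≠ 0 := by
          rintro rfl
          rw [zero_smul] at ha'
          exact hγ0 ((U (1 * g j * 1⁻¹)).injective (by rw [ha', map_zero]))
        have h6 : φ j x' = φ' j x' := by
          refine CP.inj n3 n4 (a := a⁻¹ * a') (mul_ne_zero (inv_ne_zero ha0) ha0') ?_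
          rw [mul_smul, ← ha', ha, smul_smul, inv_mul_cancel₀ ha0, one_smul]
        rw [h6]
      rw [h5]
      exact h4
    -- but not everywhere
    have hO : {z | (F z ∉ T ∪ M₀ ∪ Mg → ζ (β (b (e (p z)))) = 0) ∧
        LC p F m v U π Θ N z e b F0 β γ τ ∧ ContinuousAt (fun y => β (b (e (p y)))) z} ∈ 𝓝 z₁ := by
      filter_upwards [hζ0, GG.lc_near hp.cov hLC, hon] with z a1 a2 a3 using ⟨a1, a2, a3.1⟩
    obtain ⟨O, hOs, hOo, hOz⟩ := _root_.mem_nhds_iff.1 hO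
    have h1 : (fun y => β (b (e (p y)))) '' O ∈ 𝓝 b₀ :=
      hon.self_of_nhds.2.1 (image_mem_map (hOo.mem_nhds hOz))
    obtain ⟨ρ₁, hρ₁, hρ₁b⟩ := Metric.mem_nhds_iff.1 h1
    obtain ⟨x₁, hx₁, hζx₁⟩ := hζne (min ρ₁ ρ₀) (lt_min hρ₁ hρ₀)
    obtain ⟨z₂, hz₂, rfl⟩ := hρ₁b (ball_subset_ball (min_le_left _ _) hx₁)
    have hx₁' : β (b (e (p z₂))) ∈ ball b₀ ρ₀ := ball_subset_ball (min_le_right _ _) hx₁
    obtain ⟨-, hLC₂, hc₂⟩ := hOs hz₂
    have h2 : ContinuousAt (fun z => ζ (β (b (e (p z))))) z₂ := by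
      have h3 : ContinuousAt ζ (β (b (e (p z₂)))) :=
        (hζd.differentiableAt (isOpen_ball.mem_nhds hx₁')).continuousAt
      exact ContinuousAt.comp (g := ζ) (f := fun z => β (b (e (p z)))) h3 hc₂
    have h3 : {z | ζ (β (b (e (p z)))) ≠ 0 ∧ z ∈ O} ∈ 𝓝 z₂ := by
      filter_upwards [h2.eventually_ne hζx₁, hOo.mem_nhds hz₂] with z a1 a2 using ⟨a1, a2⟩
    have h4 : F '' {z | ζ (β (b (e (p z)))) ≠ 0 ∧ z ∈ O} ∈ 𝓝 (F z₂) := by
      rw [← hLC₂.map_nhds hp.cov]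
      exact image_mem_map h3
    obtain ⟨t₀, ht₀, z₃, ⟨hz₃, hz₃O⟩, rfl⟩ := (dense_of_mem_residual hbad).inter_nhds_nonempty h4
    exact hz₃ ((hOs hz₃O).1 ht₀)

/-- **G2, global form** -/
theorem dkG' : DKGStmt' := dkG'_of rigStmt

/-- **G2** -/
theorem dkG : DKGStmt := GG.dkG rigStmt

end Vale.Agent.P284.H451.G
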