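import Vale.Agent.P284.H451.G.Chord
import Mathlib.Order.Filter.Ultrafilter.Basic

/-!
# P284 (helper451), target G: local consequences of the chord lemma
-/

open scoped Topology ContDiff
open Filter Set Metric

noncomputable section

namespace Vale.Agent.P284.H451.G

open Vale.Agent.P272.K Vale.Agent.P284.H573

variable {s : ℕ} {H : Type} [NormedAddCommGroup H] [InnerProductSpace ℂ H]

/-- `T` preserves the inner product -/
def Iso (T : H →L[ℂ] H) : Prop := ∀ u v, inner ℂ (T u) (T v) = inner ℂ u v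

theorem Iso.norm {T : H →L[ℂ] H} (hT : Iso T) (u : H) : ‖T u‖ = ‖u‖ := by
  have h := hT u u
  rw [inner_self_eq_norm_sq_to_K, inner_self_eq_norm_sq_to_K] at h
  have h2 : ‖T u‖ ^ 2 = ‖u‖ ^ 2 := by exact_mod_cast h
  nlinarith [norm_nonneg (T u), norm_nonneg u]

/-- the polarised isometry identity -/
theorem Iso.pair {T : H →L[ℂ] H} (hT : Iso T) (w u : H) :
    inner ℂ (T w) (T u - u) = - inner ℂ (T w - w) u := by
  rw [inner_sub_right, inner_sub_left, hT]; ring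

theorem Iso.pair_le {T : H →L[ℂ] H} (hT : Iso T) (w u : H) :
    ‖inner ℂ w (T u - u)‖ ≤ 3 * ‖u‖ * ‖T w - w‖ := by
  have h1 : inner ℂ w (T u - u) = - inner ℂ (T w - w) u - inner ℂ (T w - w) (T u - u) := by
    rw [← hT.pair, ← inner_sub_left]; congr 1; abel
  have h2 : ‖T u - u‖ ≤ 2 * ‖u‖ := by
    have := norm_sub_le (T u) u
    rw [hT.norm] at this
    linarith
  rw [h1]
  refine (norm_sub_le _ _).trans ?_
  rw [norm_neg]
  have h3 : ‖inner ℂ (T w - w) u‖ ≤ ‖T w - w‖ * ‖u‖ := norm_inner_le_norm _ _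
  have h4 : ‖inner ℂ (T w - w) (T u - u)‖ ≤ ‖T w - w‖ * (2 * ‖u‖) :=
    (norm_inner_le_norm _ _).trans (mul_le_mul_of_nonneg_left h2 (norm_nonneg _))
  nlinarith

variable {γ : Cm s → H} {x₀ : Cm s} {r : ℝ}

theorem Chd.iso (h : Chd γ x₀ r) {τ : ℝ} (hτ : 0 < τ) (hτr : τ < r) :
    ∃ C : ℝ, 0 < C ∧ ∀ T : H →L[ℂ] H, Iso T → ∀ x₁ ∈ ball x₀ r, ∀ x ∈ ball x₀ r,
      ∀ x' ∈ ball x₀ r, ∀ a : ℂ, T (γ x) = a • γ x' →
      ‖a - 1‖ + ‖a • (x' - x)‖ ≤ C * ∑ i, ‖T (γ (cl x₁ τ i)) - γ (cl x₁ τ i)‖ ∧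
      ‖T (γ x) - γ x‖ ≤ C * ∑ i, ‖T (γ (cl x₁ τ i)) - γ (cl x₁ τ i)‖ := by
  obtain ⟨C, hC, hkey⟩ := h.key τ hτ hτr
  obtain ⟨B, hB, hb1, hb2⟩ := h.bd
  have hsub : ball x₀ r ⊆ ball x₀ (2 * r) := ball_subset_ball (by linarith [h.pos])
  refine ⟨C * (3 * B) * (1 + B), by positivity, fun T hT x₁ hx₁ x hx x' hx' a ha => ?_⟩
  set S : ℝ := ∑ i, ‖T (γ (cl x₁ τ i)) - γ (cl x₁ τ i)‖ with hS
  have hS0 : 0 ≤ S := Finset.sum_nonneg fun _ _ => norm_nonneg _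
  have h1 := hkey x₁ hx₁ x hx x' hx' a
  rw [← ha] at h1
  have h2 : ∑ i, ‖inner ℂ (γ (cl x₁ τ i)) (T (γ x) - γ x)‖ ≤ 3 * B * S := by
    rw [hS, Finset.mul_sum]
    refine Finset.sum_le_sum fun i _ => ?_
    refine (hT.pair_le _ _).trans ?_
    have := (hb1 x (hsub hx)).1
    gcongr
  have h3 : ‖a - 1‖ + ‖a • (x' - x)‖ ≤ C * (3 * B) * S := by
    refine h1.trans ?_
    rw [mul_assoc]
    exact mul_le_mul_of_nonneg_left h2 hC.le
  have h5 : 0 ≤ C * (3 * B) * S := by positivity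
  constructor
  · refine h3.trans ?_
    nlinarith
  · have h4 : T (γ x) - γ x = (a - 1) • γ x + a • (γ x' - γ x) := by
      rw [ha]; module
    rw [h4]
    have h6 : ‖a • (γ x' - γ x)‖ ≤ B * ‖a • (x' - x)‖ := by
      rw [norm_smul, norm_smul]
      have := hb2 x (hsub hx) x' (hsub hx')
      calc ‖a‖ * ‖γ x' - γ x‖ ≤ ‖a‖ * (B * ‖x' - x‖) := by gcongr
        _ = _ := by ring
    have h7 : ‖(a - 1) • γ x‖ ≤ B * ‖a - 1‖ := by
      rw [norm_smul, mul_comm]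
      exact mul_le_mul_of_nonneg_right (hb1 x (hsub hx)).1 (norm_nonneg _)
    calc ‖(a - 1) • γ x + a • (γ x' - γ x)‖ ≤ B * ‖a - 1‖ + B * ‖a • (x' - x)‖ :=
          (norm_add_le _ _).trans (add_le_add h7 h6)
      _ = B * (‖a - 1‖ + ‖a • (x' - x)‖) := by ring
      _ ≤ B * (C * (3 * B) * S) := by gcongr
      _ ≤ C * (3 * B) * (1 + B) * S := by nlinarith

/-- the infinitesimal version -/
theorem Chd.inf (h : Chd γ x₀ r) {τ : ℝ} (hτ : 0 < τ) (hτr : τ < r) :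
    ∃ C : ℝ, 0 < C ∧ ∀ x₁ ∈ ball x₀ r, ∀ x ∈ ball x₀ r, ∀ (l : ℂ) (η : Cm s),
      ‖l‖ + ‖η‖ ≤ C * ∑ i, ‖inner ℂ (γ (cl x₁ τ i)) (l • γ x + fderiv ℂ γ x η)‖ := by
  obtain ⟨C, hC, hkey⟩ := h.key τ hτ hτr
  have hsub : ball x₀ r ⊆ ball x₀ (2 * r) := ball_subset_ball (by linarith [h.pos])
  refine ⟨C, hC, fun x₁ hx₁ x hx l η => ?_⟩
  set f : ℝ → H := fun t => (1 + (t : ℂ) * l) • γ (x + (t : ℂ) • η) - γ x with hf
  have hfd : HasDerivAt f (l • γ x + fderiv ℂ γ x η) 0 := by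
    have h1 : HasDerivAt (fun t : ℝ => x + (t : ℂ) • η) η 0 := by
      have h2 : HasDerivAt (fun t : ℝ => (t : ℂ)) 1 0 := Complex.ofRealCLM.hasDerivAt
      have h3 := (h2.smul_const η).const_add x
      rwa [one_smul] at h3
    have h2 : HasFDerivAt γ ((fderiv ℂ γ x).restrictScalars ℝ) (x + ((0 : ℝ) : ℂ) • η) := by
      have h3 := (h.an x (hsub hx)).differentiableAt.hasFDerivAt.restrictScalars ℝ
      simpa using h3
    have h3 : HasDerivAt (fun t : ℝ => γ (x + (t : ℂ) • η)) (fderiv ℂ γ x η) 0 := by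
      have h4 := HasFDerivAt.comp_hasDerivAt (l := γ) (l' := (fderiv ℂ γ x).restrictScalars ℝ)
        (f := fun t : ℝ => x + (t : ℂ) • η) (0 : ℝ) h2 h1
      exact h4
    have h4 : HasDerivAt (fun t : ℝ => 1 + (t : ℂ) * l) l 0 := by
      have h5 : HasDerivAt (fun t : ℝ => (t : ℂ)) 1 0 := Complex.ofRealCLM.hasDerivAt
      have h6 := (h5.mul_const l).const_add 1
      rwa [one_mul] at h6
    have h7 := (h4.smul h3).sub_const (γ x)
    refine h7.congr_deriv ?_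
    simp [add_comm]
  have hlim : Tendsto (fun t : ℝ => (t : ℂ)⁻¹ • f t) (𝓝[>] 0)
      (𝓝 (l • γ x + fderiv ℂ γ x η)) := by
    have h1 := hfd.tendsto_slope_zero_right
    refine h1.congr fun t => ?_
    have h0 : f 0 = 0 := by simp [hf]
    rw [zero_add, h0, sub_zero, ← Complex.coe_smul, Complex.ofReal_inv]
  -- the inequality for small `t`
  have hin : ∀ᶠ t : ℝ in 𝓝[>] 0, ‖l‖ + ‖1 + (t : ℂ) * l‖ * ‖η‖ ≤
      C * ∑ i, ‖inner ℂ (γ (cl x₁ τ i)) ((t : ℂ)⁻¹ • f t)‖ := by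
    have h1 : ∀ᶠ t : ℝ in 𝓝 0, x + (t : ℂ) • η ∈ ball x₀ r := by
      have h2 : Continuous fun t : ℝ => x + (t : ℂ) • η := by fun_prop
      have h3 := h2.tendsto 0
      simp only [Complex.ofReal_zero, zero_smul, add_zero] at h3
      exact h3.eventually (isOpen_ball.mem_nhds hx)
    filter_upwards [h1.filter_mono nhdsWithin_le_nhds, self_mem_nhdsWithin] with t ht ht0
    have ht0' : 0 < t := ht0
    have h2 := hkey x₁ hx₁ x hx _ ht (1 + (t : ℂ) * l)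
    have e1 : ‖(1 + (t : ℂ) * l) - 1‖ = t * ‖l‖ := by
      rw [add_sub_cancel_left, norm_mul, Complex.norm_real, Real.norm_of_nonneg ht0'.le]
    have e2 : ‖(1 + (t : ℂ) * l) • (x + (t : ℂ) • η - x)‖ = t * (‖1 + (t : ℂ) * l‖ * ‖η‖) := by
      rw [add_sub_cancel_left, norm_smul, norm_smul, Complex.norm_real,
        Real.norm_of_nonneg ht0'.le]
      ring
    rw [e1, e2, ← mul_add] at h2
    have e3 : ∀ i, ‖inner ℂ (γ (cl x₁ τ i)) ((t : ℂ)⁻¹ • f t)‖ =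
        t⁻¹ * ‖inner ℂ (γ (cl x₁ τ i)) (f t)‖ := by
      intro i
      rw [inner_smul_right, norm_mul, norm_inv, Complex.norm_real, Real.norm_of_nonneg ht0'.le]
    simp only [e3]
    rw [← Finset.mul_sum, mul_left_comm, le_inv_mul_iff₀ ht0']
    exact h2
  have hL : Tendsto (fun t : ℝ => ‖l‖ + ‖1 + (t : ℂ) * l‖ * ‖η‖) (𝓝[>] 0) (𝓝 (‖l‖ + ‖η‖)) := by
    have h1 : Continuous fun t : ℝ => ‖l‖ + ‖1 + (t : ℂ) * l‖ * ‖η‖ := by fun_prop
    have h2 := (h1.tendsto 0).mono_left (nhdsWithin_le_nhds (s := Ioi 0))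
    simpa using h2
  have hR : Tendsto (fun t : ℝ => C * ∑ i, ‖inner ℂ (γ (cl x₁ τ i)) ((t : ℂ)⁻¹ • f t)‖) (𝓝[>] 0)
      (𝓝 (C * ∑ i, ‖inner ℂ (γ (cl x₁ τ i)) (l • γ x + fderiv ℂ γ x η)‖)) := by
    refine Tendsto.const_mul C (tendsto_finsetSum _ fun i _ => ?_)
    exact ((tendsto_const_nhds (x := γ (cl x₁ τ i))).inner hlim).norm
  exact le_of_tendsto_of_tendsto hL hR hin

theorem imm_unique {x : Cm s} (h : ImmAt γ x) {l l' : ℂ} {η η' : Cm s}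
    (he : l • γ x + fderiv ℂ γ x η = l' • γ x + fderiv ℂ γ x η') : l = l' ∧ η = η' := by
  have h1 : fderiv ℂ γ x (η - η') = (l' - l) • γ x := by
    rw [map_sub, sub_smul]
    rw [← sub_eq_zero] at he ⊢
    rw [← he]; abel
  have h2 := sub_eq_zero.1 (h.2 _ _ h1)
  subst h2
  have h3 := add_right_cancel he
  have h4 : (l - l') • γ x = 0 := by rw [sub_smul, h3, sub_self]
  exact ⟨sub_eq_zero.1 ((smul_eq_zero.1 h4).resolve_right h.1), rfl⟩

/-- the limit of the normalised chords -/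
theorem lim_chord {ι : Type*} (𝒰 : Ultrafilter ι) {x : Cm s} (hγ : DifferentiableAt ℂ γ x)
    {ε : ι → ℝ} (hε : ∀ᶠ j in (𝒰 : Filter ι), 0 < ε j) (hε0 : Tendsto ε 𝒰 (𝓝 0))
    {a : ι → ℂ} {x' : ι → Cm s} {C : ℝ}
    (hb : ∀ᶠ j in (𝒰 : Filter ι), ‖a j - 1‖ + ‖a j • (x' j - x)‖ ≤ C * ε j) :
    ∃ (l : ℂ) (η : Cm s), Tendsto (fun j => (((ε j)⁻¹ : ℝ) : ℂ) • (x' j - x)) 𝒰 (𝓝 η) ∧
      Tendsto (fun j => (((ε j)⁻¹ : ℝ) : ℂ) * (a j - 1)) 𝒰 (𝓝 l) ∧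
      Tendsto (fun j => (((ε j)⁻¹ : ℝ) : ℂ) • (a j • γ (x' j) - γ x)) 𝒰
        (𝓝 (l • γ x + fderiv ℂ γ x η)) := by
  -- `a → 1`
  have hCε : Tendsto (fun j => C * ε j) 𝒰 (𝓝 0) := by simpa using hε0.const_mul C
  have ha1 : Tendsto (fun j => a j - 1) 𝒰 (𝓝 0) := by
    rw [tendsto_zero_iff_norm_tendsto_zero]
    refine squeeze_zero' (Eventually.of_forall fun j => norm_nonneg _) ?_ hCε
    filter_upwards [hb] with j hj
    linarith [norm_nonneg (a j • (x' j - x))]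
  have ha : Tendsto a 𝒰 (𝓝 1) := by
    have := ha1.add_const 1
    simpa using this
  have hnorm : ∀ᶠ j in (𝒰 : Filter ι), 2⁻¹ ≤ ‖a j‖ := by
    have h1 := ha.norm
    rw [norm_one] at h1
    exact (h1.eventually_const_lt (by norm_num : (2⁻¹ : ℝ) < 1)).mono fun j hj => hj.le
  have hbx : ∀ᶠ j in (𝒰 : Filter ι), ‖(((ε j)⁻¹ : ℝ) : ℂ) • (x' j - x)‖ ≤ 2 * C := by
    filter_upwards [hb, hε, hnorm] with j h1 h2 h3
    rw [norm_smul, Complex.norm_real, Real.norm_of_nonneg (by positivity), inv_mul_le_iff₀ h2]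
    rw [norm_smul] at h1
    have h4 : 2⁻¹ * ‖x' j - x‖ ≤ ‖a j‖ * ‖x' j - x‖ :=
      mul_le_mul_of_nonneg_right h3 (norm_nonneg _)
    have h5 := norm_nonneg (a j - 1)
    linarith
  have hba : ∀ᶠ j in (𝒰 : Filter ι), ‖(((ε j)⁻¹ : ℝ) : ℂ) * (a j - 1)‖ ≤ C := by
    filter_upwards [hb, hε] with j h1 h2
    rw [norm_mul, Complex.norm_real, Real.norm_of_nonneg (by positivity), inv_mul_le_iff₀ h2]
    have h5 := norm_nonneg (a j • (x' j - x))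
    linarith
  have hbx' : ∀ᶠ j in (𝒰 : Filter ι), (((ε j)⁻¹ : ℝ) : ℂ) • (x' j - x) ∈
      closedBall (0 : Cm s) (2 * C) := hbx.mono fun j hj => by
    rw [mem_closedBall, dist_zero_right]; exact hj
  have hba' : ∀ᶠ j in (𝒰 : Filter ι), (((ε j)⁻¹ : ℝ) : ℂ) * (a j - 1) ∈
      closedBall (0 : ℂ) C := hba.mono fun j hj => by
    rw [mem_closedBall, dist_zero_right]; exact hj
  obtain ⟨η, -, hη⟩ := (isCompact_closedBall (0 : Cm s) (2 * C)).ultrafilter_le_nhds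
    (𝒰.map fun j => (((ε j)⁻¹ : ℝ) : ℂ) • (x' j - x)) (by
      rw [le_principal_iff]
      exact hbx')
  obtain ⟨l, -, hl⟩ := (isCompact_closedBall (0 : ℂ) C).ultrafilter_le_nhds
    (𝒰.map fun j => (((ε j)⁻¹ : ℝ) : ℂ) * (a j - 1)) (by
      rw [le_principal_iff]
      exact hba')
  have hη' : Tendsto (fun j => (((ε j)⁻¹ : ℝ) : ℂ) • (x' j - x)) 𝒰 (𝓝 η) := hη
  have hl' : Tendsto (fun j => (((ε j)⁻¹ : ℝ) : ℂ) * (a j - 1)) 𝒰 (𝓝 l) := hl
  have hx0 : Tendsto (fun j => x' j - x) 𝒰 (𝓝 0) := by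
    rw [tendsto_zero_iff_norm_tendsto_zero]
    have h3 : Tendsto (fun j => 2 * (C * ε j)) 𝒰 (𝓝 0) := by simpa using hCε.const_mul 2
    refine squeeze_zero' (Eventually.of_forall fun j => norm_nonneg _) ?_ h3
    filter_upwards [hb, hnorm] with j h1 h3
    rw [norm_smul] at h1
    have h4 : 2⁻¹ * ‖x' j - x‖ ≤ ‖a j‖ * ‖x' j - x‖ :=
      mul_le_mul_of_nonneg_right h3 (norm_nonneg _)
    have h5 := norm_nonneg (a j - 1)
    linarith
  have hd : Tendsto (fun j => (((ε j)⁻¹ : ℝ) : ℂ) • (γ (x' j) - γ x)) 𝒰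
      (𝓝 (fderiv ℂ γ x η)) := by
    have h1 := (hγ.hasFDerivAt.hasFDerivWithinAt (s := univ)).lim
      (c := fun j => (((ε j)⁻¹ : ℝ) : ℂ)) (d := fun j => x' j - x) (v := η) hx0
      (Eventually.of_forall fun _ => mem_univ _) hη'
    refine h1.congr fun j => ?_
    rw [add_sub_cancel]
  have hx' : Tendsto (fun j => γ (x' j)) 𝒰 (𝓝 (γ x)) := by
    have h1 : Tendsto x' 𝒰 (𝓝 x) := by
      have h3 := hx0.add_const x
      simpa using h3
    exact hγ.continuousAt.tendsto.comp h1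
  refine ⟨l, η, hη', hl', ?_⟩
  refine ((hl'.smul hx').add hd).congr fun j => ?_
  module

end Vale.Agent.P284.H451.G
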